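import Vale.Agent.P046.Cert

namespace Vale.Agent.P046.Cert

/-- What a checked decomposition proves. -/
lemma check_nonneg {x y z : ℝ} (hx : 0 ≤ x) (hy : 0 ≤ y) (hz : 0 ≤ z) {P : Ex}
    {K : ℕ} {ps : List Pair} {S : Pol} (hK : 0 < K) (h : check K P ps S = true) :
    0 ≤ P.val x y z := by
  simp only [check, Bool.and_eq_true] at h
  obtain ⟨⟨hps, hS⟩, hz0⟩ := h
  have e0 := Ex.eq_zero hz0 x y z
  have hSn := ev3_nonneg hx hy hz hS
  have h1 := strip_le hx hy hz (.mul (.poly (con (K : ℤ))) P) ps hps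
  simp only [Ex.val, ev3_con] at e0 h1
  push_cast at e0 h1
  have hK' : (0 : ℝ) < K := by exact_mod_cast hK
  exact (mul_nonneg_iff_of_pos_left hK').1 (by linarith)

end Vale.Agent.P046.Cert
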