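import Vale.Agent.P046.Interface

/-!
P046: assembly of the potentials into two-sided bounds on the expected number of edges left.
-/

namespace Vale.Agent.P046

open Finset

variable {n : ℕ}

lemma card_le_sq {G : Gr n} (hG : G ⊆ complete n) : (G.card : ℝ) ≤ (n : ℝ) ^ 2 := by
  have h := card_le_card hG
  rw [complete, card_powersetCard, card_univ, Fintype.card_fin] at h
  exact_mod_cast h.trans (Nat.choose_le_pow n 2)

/-- The final edge count is at most the initial one, in the form of a bound on `expectFinal`. -/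
lemma expectFinal_le_const (φ : ℕ → ℝ) (c : ℝ) : ∀ G : Gr n,
    (∀ m ≤ G.card, φ m ≤ c) → expectFinal φ G ≤ c := by
  intro G
  induction G using Finset.strongInduction with
  | H G ih =>
    intro hφ
    by_cases hT : tri G = ∅
    · rw [expectFinal_stop φ hT]; exact hφ _ le_rfl
    · have hTpos : (0 : ℝ) < ((tri G).card : ℝ) := by
        exact_mod_cast card_pos.2 (nonempty_iff_ne_empty.2 hT)
      rw [expectFinal_step φ hT, div_le_iff₀ hTpos]
      calc ∑ D ∈ tri G, expectFinal φ (rem G D) ≤ ∑ _D ∈ tri G, c := by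
            refine sum_le_sum fun D hD => ih _ ?_ fun m hm => hφ m (hm.trans ?_)
            · exact (rem_subset G D).ssubset_of_ne fun h => (card_rem_lt hD).ne (by rw [h])
            · exact (card_rem_lt hD).le
        _ = c * ((tri G).card : ℝ) := by rw [sum_const, nsmul_eq_mul, mul_comm]

lemma expectFinal_nonneg (φ : ℕ → ℝ) (hφ : ∀ m, 0 ≤ φ m) : ∀ G : Gr n, 0 ≤ expectFinal φ G := by
  intro G
  induction G using Finset.strongInduction with
  | H G ih =>
    by_cases hT : tri G = ∅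
    · rw [expectFinal_stop φ hT]; exact hφ _
    · rw [expectFinal_step φ hT]
      refine div_nonneg (sum_nonneg fun D hD => ih _ ?_) (Nat.cast_nonneg _)
      exact (rem_subset G D).ssubset_of_ne fun h => (card_rem_lt hD).ne (by rw [h])

/-- Optional stopping, upper form, with an invariant. -/
lemma expectFinal_le_potential (φ : ℕ → ℝ) (Φ : Gr n → ℝ) (Inv P : Gr n → Prop)
    (hstep : ∀ G, Inv G → P G → ∀ D ∈ tri G, Inv (rem G D))
    (hT : ∀ G, Inv G → P G → tri G ≠ ∅)
    (hdrift : ∀ G, Inv G → P G → ∑ D ∈ tri G, Φ (rem G D) ≤ tR G * Φ G)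
    (hstop : ∀ G, Inv G → ¬ P G → expectFinal φ G ≤ Φ G) :
    ∀ G, Inv G → expectFinal φ G ≤ Φ G := by
  intro G
  induction G using Finset.strongInduction with
  | H G ih =>
    intro hI
    by_cases hP : P G
    · have hne := hT G hI hP
      have hTpos : (0 : ℝ) < ((tri G).card : ℝ) := by
        exact_mod_cast card_pos.2 (nonempty_iff_ne_empty.2 hne)
      rw [expectFinal_step φ hne, div_le_iff₀ hTpos]
      calc ∑ D ∈ tri G, expectFinal φ (rem G D) ≤ ∑ D ∈ tri G, Φ (rem G D) :=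
            sum_le_sum fun D hD => ih _
              ((rem_subset G D).ssubset_of_ne fun h => (card_rem_lt hD).ne (by rw [h]))
              (hstep G hI hP D hD)
        _ ≤ tR G * Φ G := hdrift G hI hP
        _ = Φ G * ((tri G).card : ℝ) := mul_comm _ _
    · exact hstop G hI hP

/-- Optional stopping, lower form, with an invariant. -/
lemma potential_le_expectFinal (φ : ℕ → ℝ) (Φ : Gr n → ℝ) (Inv P : Gr n → Prop)
    (hstep : ∀ G, Inv G → P G → ∀ D ∈ tri G, Inv (rem G D))
    (hT : ∀ G, Inv G → P G → tri G ≠ ∅)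
    (hdrift : ∀ G, Inv G → P G → tR G * Φ G ≤ ∑ D ∈ tri G, Φ (rem G D))
    (hstop : ∀ G, Inv G → ¬ P G → Φ G ≤ expectFinal φ G) :
    ∀ G, Inv G → Φ G ≤ expectFinal φ G := by
  intro G
  induction G using Finset.strongInduction with
  | H G ih =>
    intro hI
    by_cases hP : P G
    · have hne := hT G hI hP
      have hTpos : (0 : ℝ) < ((tri G).card : ℝ) := by
        exact_mod_cast card_pos.2 (nonempty_iff_ne_empty.2 hne)
      rw [expectFinal_step φ hne, le_div_iff₀ hTpos]
      calc Φ G * ((tri G).card : ℝ) = tR G * Φ G := mul_comm _ _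
        _ ≤ ∑ D ∈ tri G, Φ (rem G D) := hdrift G hI hP
        _ ≤ ∑ D ∈ tri G, expectFinal φ (rem G D) :=
            sum_le_sum fun D hD => ih _
              ((rem_subset G D).ssubset_of_ne fun h => (card_rem_lt hD).ne (by rw [h]))
              (hstep G hI hP D hD)
    · exact hstop G hI hP

/-- The total failure potential. -/
noncomputable def zz (G : Gr n) : ℝ :=
  Real.exp (lp G - 3 * 10 ^ 12 * lam n) + Real.exp (lw 1 G - 8 * lam n) +
    Real.exp (lw (-1) G - 8 * lam n) + mm G / (n : ℝ) ^ 8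

lemma zz_nonneg (G : Gr n) : 0 ≤ zz G := by
  have : 0 ≤ mm G := sum_nonneg fun _ _ => (Real.exp_pos _).le
  unfold zz
  positivity

lemma zz_parts (G : Gr n) :
    Real.exp (lp G - 3 * 10 ^ 12 * lam n) ≤ zz G ∧ Real.exp (lw 1 G - 8 * lam n) ≤ zz G ∧
      Real.exp (lw (-1) G - 8 * lam n) ≤ zz G ∧ mm G / (n : ℝ) ^ 8 ≤ zz G := by
  have hm : 0 ≤ mm G / (n : ℝ) ^ 8 :=
    div_nonneg (sum_nonneg fun _ _ => (Real.exp_pos _).le) (by positivity)
  have a := (Real.exp_pos (lp G - 3 * 10 ^ 12 * lam n)).le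
  have b := (Real.exp_pos (lw 1 G - 8 * lam n)).le
  have c := (Real.exp_pos (lw (-1) G - 8 * lam n)).le
  exact ⟨le_add_of_le_of_nonneg (le_add_of_le_of_nonneg (le_add_of_nonneg_right b) c) hm,
    le_add_of_le_of_nonneg (le_add_of_le_of_nonneg (le_add_of_nonneg_left a) c) hm,
    le_add_of_le_of_nonneg (le_add_of_nonneg_left (add_nonneg a b)) hm,
    le_add_of_nonneg_left (add_nonneg (add_nonneg a b) c)⟩

lemma sum_zz_rem (hM : MDrift) (hP : PDrift) (hW : WDrift) (hn : Big n) {G : Gr n}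
    (hG : Good G) : ∑ D ∈ tri G, zz (rem G D) ≤ tR G * zz G := by
  have key : ∀ (f : Gr n → ℝ) (c : ℝ),
      ∑ D ∈ tri G, Real.exp (f (rem G D)) ≤ tR G * Real.exp (f G) →
      ∑ D ∈ tri G, Real.exp (f (rem G D) - c) ≤ tR G * Real.exp (f G - c) := by
    intro f c h
    simp only [Real.exp_sub, ← sum_div, ← mul_div_assoc]
    exact div_le_div_of_nonneg_right h (Real.exp_pos _).le
  have h1 := key lp (3 * 10 ^ 12 * lam n) (hP n G hn hG)
  have h2 := key (lw 1) (8 * lam n) (hW n G hn hG 1 (Or.inl rfl))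
  have h3 := key (lw (-1)) (8 * lam n) (hW n G hn hG (-1) (Or.inr rfl))
  have h4 : ∑ D ∈ tri G, mm (rem G D) / (n : ℝ) ^ 8 ≤ tR G * (mm G / (n : ℝ) ^ 8) := by
    rw [← sum_div, ← mul_div_assoc]
    exact div_le_div_of_nonneg_right (hM n G hn hG) (by positivity)
  simp only [zz, sum_add_distrib, mul_add]
  exact add_le_add (add_le_add (add_le_add h1 h2) h3) h4

lemma big_pos (hn : Big n) : 0 < lam n ∧ 0 < (n : ℝ) ∧ 10 ≤ (n : ℝ) := by
  obtain ⟨h1, h2⟩ := hn
  have h3 : (1 : ℝ) ≤ lam n ^ 20 := one_le_pow₀ (by linarith)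
  have h4 : (10 : ℝ) ≤ 10 ^ 60 * lam n ^ 20 := by nlinarith
  exact ⟨by linarith, by linarith, by linarith⟩

lemma exp_eight_lam (hn : Big n) : Real.exp (8 * lam n) = (n : ℝ) ^ 8 := by
  obtain ⟨-, hn0, -⟩ := big_pos hn
  rw [show (8 : ℝ) * lam n = ((8 : ℕ) : ℝ) * lam n by norm_num, Real.exp_nat_mul, lam,
    Real.exp_log hn0]

lemma log_eR_nonneg (G : Gr n) : 0 ≤ Real.log (eR G) := Real.log_natCast_nonneg _

/-- Leaving the tube of `ww` makes the failure potential at least one. -/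
lemma one_le_zz_of_ww (G : Gr n) (hn : Big n) (h : 1 < |ww G - w0 n|) : 1 ≤ zz G := by
  obtain ⟨hl, -, -⟩ := big_pos hn
  have hm : 0 ≤ mm G / (n : ℝ) ^ 8 :=
    div_nonneg (sum_nonneg fun _ _ => (Real.exp_pos _).le) (by positivity)
  have he := log_eR_nonneg G
  have key : ∀ σ : ℝ, 1 < σ * (ww G - w0 n) → 1 ≤ Real.exp (lw σ G - 8 * lam n) := by
    intro σ hσ
    refine Real.one_le_exp ?_
    have e : lw σ G = 8 * lam n * (σ * (ww G - w0 n)) + Real.log (eR G) := by
      rw [lw, mul_add, mul_div_cancel₀ _ (by positivity)]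
    rw [e]
    have := mul_le_mul_of_nonneg_left hσ.le (show 0 ≤ 8 * lam n by positivity)
    linarith
  rcases lt_abs.1 h with h' | h'
  · exact (key 1 (by rw [one_mul]; exact h')).trans (zz_parts G).2.1
  · exact (key (-1) (by rw [neg_one_mul]; exact h')).trans (zz_parts G).2.2.1

/-- Outside the good states either the failure potential is at least one, or the mean codegree
is small while `ww` is still controlled. -/
lemma stop_cases (hn : Big n) {G : Gr n} (hG : ¬ Good G) :
    1 ≤ zz G ∨ (mu G < ll n ∧ |ww G - w0 n| ≤ 1 ∧ pp G ≤ bb n ∧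
      (∀ g ∈ G, (deg G g : ℝ) ≤ kk n * mu G) ∧ 0 < mu G ∧ 0 < eR G) := by
  obtain ⟨hl, hn0, hn10⟩ := big_pos hn
  by_cases hw : 1 < |ww G - w0 n|
  · exact Or.inl (one_le_zz_of_ww G hn hw)
  push Not at hw
  -- the tube of `ww` forces edges and triangles
  have hw0 : w0 n < -1 := by
    have e : w0 n = Real.log 4 - 3 * lam n := by
      rw [w0, Real.log_div (by norm_num) (by positivity), Real.log_pow, lam]; norm_num
    have h4 : Real.log 4 ≤ 3 := by
      linarith [Real.log_le_sub_one_of_pos (show (0:ℝ) < 4 by norm_num)]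
    linarith [hn.1]
  have hne : mu G / eR G ^ 2 ≠ 0 := by
    intro h0
    rw [ww, h0, Real.log_zero] at hw
    linarith [(abs_le.1 hw).2]
  obtain ⟨hm0, he0⟩ := div_ne_zero_iff.1 hne
  have he : 0 < eR G := lt_of_le_of_ne (Nat.cast_nonneg _) (fun h => he0 (by rw [← h]; norm_num))
  have hm : 0 < mu G := lt_of_le_of_ne
    (div_nonneg (mul_nonneg (by norm_num) (Nat.cast_nonneg _)) (Nat.cast_nonneg _)) (Ne.symm hm0)
  by_cases hd : ∀ g ∈ G, (deg G g : ℝ) ≤ kk n * mu G
  · by_cases hp : pp G ≤ bb n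
    · refine Or.inr ⟨?_, hw, hp, hd, hm, he⟩
      by_contra h
      exact hG ⟨not_lt.1 h, hd, hp, hw⟩
    · refine Or.inl ?_
      push Not at hp
      have h1 : 1 ≤ Real.exp (lp G - 3 * 10 ^ 12 * lam n) := by
        refine Real.one_le_exp ?_
        have h2 : 3 * 10 ^ 12 * lam n ≤ pp G / lam n ^ 2 := by
          rw [le_div_iff₀ (by positivity)]
          refine le_trans (le_of_eq ?_) hp.le
          rw [bb]; ring
        have := log_eR_nonneg G
        rw [lp]
        linarith
      exact h1.trans (zz_parts G).1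
  · refine Or.inl ?_
    push Not at hd
    obtain ⟨g, hg, hgd⟩ := hd
    have h1 : (n : ℝ) ^ 8 ≤ mm G := by
      refine le_trans ?_ (single_le_sum (fun h _ => (Real.exp_pos ((deg G h : ℝ) / (4 * mu G))).le) hg)
      rw [← exp_eight_lam hn]
      refine Real.exp_le_exp.2 ?_
      rw [le_div_iff₀ (by positivity)]
      rw [kk] at hgd
      linarith
    have h2 : 1 ≤ mm G / (n : ℝ) ^ 8 := (one_le_div (by positivity)).2 h1
    exact h2.trans (zz_parts G).2.2.2

/-- Two-sided control of the edge count by the mean codegree inside the tube of `ww`. -/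
lemma tube_edges (hn : Big n) {G : Gr n} (hw : |ww G - w0 n| ≤ 1) (hm : 0 < mu G)
    (he : 0 < eR G) :
    mu G * (n : ℝ) ^ 3 ≤ 11 * eR G ^ 2 ∧ eR G ^ 2 ≤ mu G * (n : ℝ) ^ 3 := by
  obtain ⟨-, hn0, -⟩ := big_pos hn
  obtain ⟨h1, h2⟩ := abs_le.1 hw
  have hx : 0 < mu G / eR G ^ 2 := by positivity
  have hy : 0 < 4 / (n : ℝ) ^ 3 := by positivity
  have e : ww G - w0 n = Real.log (mu G / eR G ^ 2 / (4 / (n : ℝ) ^ 3)) := by
    rw [ww, w0, ← Real.log_div hx.ne' hy.ne']
  rw [e] at h1 h2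
  rw [Real.log_le_iff_le_exp (by positivity)] at h2
  rw [Real.le_log_iff_exp_le (by positivity)] at h1
  have hq : mu G / eR G ^ 2 / (4 / (n : ℝ) ^ 3) = mu G * (n : ℝ) ^ 3 / (4 * eR G ^ 2) := by
    field_simp
  rw [hq] at h1 h2
  have he1 := Real.exp_one_lt_d9
  have he2 : (1:ℝ) / 4 ≤ Real.exp (-1) := by
    rw [Real.exp_neg, one_div]
    gcongr
    linarith
  constructor
  · rw [div_le_iff₀ (by positivity)] at h2
    have := mul_le_mul_of_nonneg_right he1.le (show 0 ≤ 4 * eR G ^ 2 by positivity)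
    nlinarith [sq_nonneg (eR G)]
  · rw [le_div_iff₀ (by positivity)] at h1
    have := mul_le_mul_of_nonneg_right he2 (show 0 ≤ 4 * eR G ^ 2 by positivity)
    linarith

lemma sqrt_ll_le (hn : Big n) : Real.sqrt (ll n) ≤ 10 ^ 9 * lam n ^ 2 := by
  rw [Real.sqrt_le_iff]
  refine ⟨by positivity, ?_⟩
  rw [ll]
  nlinarith [pow_nonneg (big_pos hn).1.le 4]

lemma cube_eq {x : ℝ} (hx : 0 ≤ x) : x ^ 3 = (x * Real.sqrt x) ^ 2 := by
  rw [mul_pow, Real.sq_sqrt hx]; ring

/-- Upper bound for the expectation of a function of the final edge count. -/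
lemma upper_bound (hM : MDrift) (hP : PDrift) (hW : WDrift) (hS : StepFacts) (hn : Big n)
    (φ : ℕ → ℝ) {a b : ℝ} (ha : 0 ≤ a) (hb : 0 ≤ b)
    (hφb : ∀ m : ℕ, (m : ℝ) ≤ (n : ℝ) ^ 2 → φ m ≤ b)
    (hφa : ∀ m : ℕ, (m : ℝ) ≤ 10 ^ 9 * lam n ^ 2 * ((n : ℝ) * Real.sqrt n) → φ m ≤ a) :
    expectFinal φ (complete n) ≤ a + b * zz (complete n) := by
  refine expectFinal_le_potential φ (fun G => a + b * zz G) (fun G => G ⊆ complete n) Good
    (fun G hI _ D _ => (rem_subset G D).trans hI) ?_ ?_ ?_ (complete n) subset_rfl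
  · intro G _ hG h0
    have := (hS n G hn hG).2.2.1
    rw [tR, h0, card_empty, Nat.cast_zero] at this
    exact lt_irrefl 0 this
  · intro G _ hG
    rw [sum_add_distrib, sum_const, nsmul_eq_mul, ← mul_sum]
    have := mul_le_mul_of_nonneg_left (sum_zz_rem hM hP hW hn hG) hb
    rw [tR] at this ⊢
    linarith
  · intro G hI hG
    have hz := zz_nonneg G
    rcases stop_cases hn hG with h | ⟨hmu, hw, -, -, hm, he⟩
    · have := le_mul_of_one_le_right hb h
      have h2 := expectFinal_le_const φ b G fun m hm =>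
        hφb m ((Nat.cast_le.2 hm).trans (card_le_sq hI))
      linarith
    · have h2 : expectFinal φ G ≤ a := by
        refine expectFinal_le_const φ a G fun m hm' => hφa m ?_
        obtain ⟨-, hn0, -⟩ := big_pos hn
        have h3 : eR G ^ 2 ≤ (10 ^ 9 * lam n ^ 2 * ((n : ℝ) * Real.sqrt n)) ^ 2 := by
          refine (tube_edges hn hw hm he).2.trans ?_
          rw [mul_pow, ← cube_eq hn0.le]
          refine mul_le_mul_of_nonneg_right (hmu.le.trans ?_) (by positivity)
          rw [← Real.sqrt_le_left (by positivity)]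
          exact sqrt_ll_le hn
        exact (Nat.cast_le.2 hm').trans
          ((pow_le_pow_iff_left₀ he.le (by positivity) two_ne_zero).1 h3)
      have : 0 ≤ b * zz G := mul_nonneg hb hz
      linarith

/-- Many edges keep codegree two or more while the dispersion is small. -/
lemma count_two (hp : PsiFacts) (hn : Big n) {G : Gr n} (hm : ll n / 2 ≤ mu G)
    (hpp : pp G ≤ bb n) (he : 0 < eR G) :
    eR G / 2 ≤ ((G.filter (fun g => 2 ≤ deg G g)).card : ℝ) := by
  obtain ⟨hl, -, -⟩ := big_pos hn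
  have hl1 : 1 ≤ lam n := by linarith [hn.1]
  have hll : 10 ^ 17 ≤ ll n := by
    rw [ll]; exact le_mul_of_one_le_right (by norm_num) (one_le_pow₀ hl1)
  have hm2 : 2 ≤ mu G := by linarith
  have hm0 : 0 < mu G := by linarith
  set low := G.filter (fun g => ¬ 2 ≤ deg G g) with hlow
  have h1 : (low.card : ℝ) / 20 ≤ ∑ g ∈ G, psi (xv G g) := by
    calc (low.card : ℝ) / 20 = ∑ _g ∈ low, (1:ℝ) / 20 := by rw [sum_const, nsmul_eq_mul]; ring
      _ ≤ ∑ g ∈ low, psi (xv G g) := by
          refine sum_le_sum fun g hg => le_trans ?_ (hp.1 _)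
          have hd : (deg G g : ℝ) ≤ 1 := by
            have := (mem_filter.1 hg).2
            exact_mod_cast (show deg G g ≤ 1 by omega)
          have hx : xv G g ≤ 1 / 2 := by
            rw [xv, div_le_iff₀ hm0]; linarith
          nlinarith
      _ ≤ ∑ g ∈ G, psi (xv G g) := sum_le_sum_of_subset_of_nonneg (filter_subset _ _)
          fun g _ _ => le_trans (by positivity) (hp.1 _)
  have h2 : mu G / eR G * ((low.card : ℝ) / 20) ≤ bb n :=
    (mul_le_mul_of_nonneg_left h1 (by positivity)).trans hpp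
  have h3 : 40 * bb n ≤ mu G := by
    refine le_trans ?_ hm
    rw [bb, ll]
    have : lam n ^ 3 ≤ lam n ^ 4 := pow_le_pow_right₀ hl1 (by norm_num)
    linarith [show (0:ℝ) ≤ lam n ^ 3 by positivity]
  have h4 : (low.card : ℝ) ≤ eR G / 2 := by
    rw [div_mul_div_comm, div_le_iff₀ (by positivity)] at h2
    have h5 := mul_le_mul_of_nonneg_right h3 he.le
    have : mu G * (low.card : ℝ) ≤ mu G * (eR G / 2) := by linarith
    exact le_of_mul_le_mul_left this hm0
  have h6 := card_filter_add_card_filter_not (s := G) (fun g => 2 ≤ deg G g)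
  have h7 : ((G.filter (fun g => 2 ≤ deg G g)).card : ℝ) + (low.card : ℝ) = eR G := by
    rw [eR, hlow]; exact_mod_cast h6
  linarith

/-- Lower bound for the expected final edge count. -/
lemma lower_bound (hp : PsiFacts) (hM : MDrift) (hP : PDrift) (hW : WDrift)
    (hLow : LowerBounded) (hS : StepFacts) (hn : Big n) (h0 : ll n / 2 ≤ mu (complete n)) :
    (n : ℝ) * Real.sqrt n / (10 ^ 23 * lam n ^ 6) * (1 - zz (complete n)) ≤
      expectFinal (fun e => (e : ℝ)) (complete n) := by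
  set a := (n : ℝ) * Real.sqrt n / (10 ^ 23 * lam n ^ 6) with ha
  obtain ⟨hl, hn0, -⟩ := big_pos hn
  have hl1 : 1 ≤ lam n := by linarith [hn.1]
  have ha0 : 0 ≤ a := by positivity
  refine potential_le_expectFinal _ (fun G => a * (1 - zz G)) (fun G => ll n / 2 ≤ mu G) Good
    ?_ ?_ ?_ ?_ (complete n) h0
  · intro G _ hG D hD
    have h1 := ((hS n G hn hG).2.2.2 D hD).2.2.2.2.2.2.2
    linarith [hG.1]
  · intro G _ hG h0'
    have := (hS n G hn hG).2.2.1
    rw [tR, h0', card_empty, Nat.cast_zero] at this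
    exact lt_irrefl 0 this
  · intro G _ hG
    rw [← mul_sum, sum_sub_distrib, sum_const, nsmul_eq_mul]
    have := mul_le_mul_of_nonneg_left (sum_zz_rem hM hP hW hn hG) ha0
    rw [tR] at this ⊢
    linarith
  · intro G hI hG
    have hEF : 0 ≤ expectFinal (fun e => (e : ℝ)) G :=
      expectFinal_nonneg _ (fun m => Nat.cast_nonneg m) G
    have hz := zz_nonneg G
    rcases stop_cases hn hG with h | ⟨hmu, hw, hpp, hd, hm, he⟩
    · have : a * (1 - zz G) ≤ 0 := mul_nonpos_of_nonneg_of_nonpos ha0 (by linarith)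
      linarith
    · refine (mul_le_of_le_one_right ha0 (by linarith)).trans ?_
      have hkk : 0 ≤ kk n := by rw [kk]; positivity
      set Y := ⌈kk n * ll n⌉₊ with hY
      have hkl : 1 ≤ kk n * ll n := by
        rw [kk, ll]
        have : (1:ℝ) ≤ lam n * lam n ^ 4 := one_le_mul_of_one_le_of_one_le hl1 (one_le_pow₀ hl1)
        linarith
      have hY1 : 1 ≤ Y := Nat.one_le_iff_ne_zero.2 (Nat.ceil_pos.2 (by linarith)).ne'
      have hdeg : ∀ g ∈ G, deg G g ≤ Y := by
        intro g hg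
        have := (hd g hg).trans (mul_le_mul_of_nonneg_left hmu.le hkk)
        exact_mod_cast this.trans (Nat.le_ceil (kk n * ll n))
      have h1 := (count_two hp hn hI hpp he).trans (hLow n G Y hY1 hdeg)
      have hYle : (Y : ℝ) ≤ 64 * 10 ^ 17 * lam n ^ 5 := by
        have h2 := Nat.ceil_lt_add_one (show 0 ≤ kk n * ll n by linarith)
        have e : kk n * ll n = 32 * 10 ^ 17 * lam n ^ 5 := by rw [kk, ll]; ring
        rw [← hY] at h2
        linarith
      have hsY : Real.sqrt Y ≤ 3 * 10 ^ 9 * lam n ^ 3 := by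
        rw [Real.sqrt_le_iff]
        refine ⟨by positivity, hYle.trans ?_⟩
        have : lam n ^ 5 ≤ lam n ^ 6 := pow_le_pow_right₀ hl1 (by norm_num)
        linarith [show (0:ℝ) ≤ lam n ^ 5 by positivity]
      have hYY : (Y : ℝ) * Real.sqrt Y ≤ 2 * 10 ^ 28 * lam n ^ 8 := by
        calc (Y : ℝ) * Real.sqrt Y ≤ 64 * 10 ^ 17 * lam n ^ 5 * (3 * 10 ^ 9 * lam n ^ 3) :=
              mul_le_mul hYle hsY (Real.sqrt_nonneg _) (by positivity)
          _ ≤ _ := by linarith [show (0:ℝ) ≤ lam n ^ 8 by positivity]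
      have he2 : (6 * 10 ^ 7 * lam n ^ 2 * ((n : ℝ) * Real.sqrt n)) ^ 2 ≤ eR G ^ 2 := by
        have h3 := (tube_edges hn hw hm he).1
        have h4 : ll n / 2 * (n : ℝ) ^ 3 ≤ mu G * (n : ℝ) ^ 3 :=
          mul_le_mul_of_nonneg_right hI (by positivity)
        rw [ll] at h4
        rw [mul_pow, ← cube_eq hn0.le]
        nlinarith [mul_nonneg (pow_nonneg hl.le 4) (pow_nonneg hn0.le 3)]
      have he3 := (pow_le_pow_iff_left₀ (by positivity) he.le two_ne_zero).1 he2
      set F := expectFinal (fun e => (e : ℝ)) G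
      have h5 : eR G ≤ 32 * (2 * 10 ^ 28 * lam n ^ 8) * F := by
        have := mul_le_mul_of_nonneg_right hYY hEF
        linarith
      rw [ha, div_le_iff₀ (by positivity)]
      have h6 : 6 * 10 ^ 7 * lam n ^ 2 * ((n : ℝ) * Real.sqrt n) ≤
          lam n ^ 2 * (6 * 10 ^ 7 * (F * (10 ^ 23 * lam n ^ 6))) := by
        refine (he3.trans h5).trans ?_
        have : 0 ≤ lam n ^ 8 * F := by positivity
        linarith
      have h7 : (lam n ^ 2 * (6 * 10 ^ 7)) * ((n : ℝ) * Real.sqrt n) ≤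
          (lam n ^ 2 * (6 * 10 ^ 7)) * (F * (10 ^ 23 * lam n ^ 6)) := by linarith
      exact le_of_mul_le_mul_left h7 (by positivity)

/-- The failure potential at the start. -/
lemma zz_start (hS0 : StartState) (hn : Big n) : zz (complete n) ≤ 1 / (n : ℝ) ^ 4 := by
  obtain ⟨hl, hn0, hn10⟩ := big_pos hn
  obtain ⟨-, -, hpp, hw, hmm⟩ := hS0 n hn
  have hlogn : Real.log (eR (complete n)) ≤ 2 * lam n := by
    rcases (Nat.cast_nonneg (complete n).card : (0:ℝ) ≤ _).lt_or_eq with h | h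
    · calc Real.log (eR (complete n)) ≤ Real.log ((n : ℝ) ^ 2) :=
            Real.log_le_log h (card_le_sq subset_rfl)
        _ = 2 * lam n := by rw [Real.log_pow, lam]; norm_num
    · rw [eR, ← h, Real.log_zero]; positivity
  have h5 : Real.exp (-(5 * lam n)) = 1 / (n : ℝ) ^ 5 := by
    rw [Real.exp_neg, show (5 : ℝ) * lam n = ((5 : ℕ) : ℝ) * lam n by norm_num, Real.exp_nat_mul,
      lam, Real.exp_log hn0, one_div]
  have e1 : Real.exp (lp (complete n) - 3 * 10 ^ 12 * lam n) ≤ 1 / (n : ℝ) ^ 5 := by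
    rw [← h5]
    refine Real.exp_le_exp.2 ?_
    rw [lp, hpp, zero_div]
    linarith
  have e2 : ∀ σ : ℝ, (σ = 1 ∨ σ = -1) →
      Real.exp (lw σ (complete n) - 8 * lam n) ≤ 1 / (n : ℝ) ^ 5 := by
    intro σ hσ
    rw [← h5]
    refine Real.exp_le_exp.2 ?_
    have h6 : σ * (ww (complete n) - w0 n) ≤ 1 / 100 := by
      rcases hσ with rfl | rfl <;> linarith [abs_le.1 hw]
    rw [lw, mul_add, mul_div_cancel₀ _ (by positivity)]
    have := mul_le_mul_of_nonneg_left h6 (show 0 ≤ 8 * lam n by positivity)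
    linarith
  have e3 : mm (complete n) / (n : ℝ) ^ 8 ≤ 1 / (n : ℝ) ^ 5 := by
    rw [div_le_div_iff₀ (by positivity) (by positivity)]
    calc mm (complete n) * (n : ℝ) ^ 5 ≤ (n : ℝ) ^ 2 * (n : ℝ) ^ 5 :=
          mul_le_mul_of_nonneg_right hmm (by positivity)
      _ = (n : ℝ) ^ 7 := by ring
      _ ≤ 1 * (n : ℝ) ^ 8 := by
          rw [one_mul]; exact pow_le_pow_right₀ (by linarith) (by norm_num)
  calc zz (complete n) ≤ 4 * (1 / (n : ℝ) ^ 5) := by
        refine (add_le_add (add_le_add (add_le_add e1 (e2 1 (Or.inl rfl)))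
          (e2 (-1) (Or.inr rfl))) e3).trans (le_of_eq ?_)
        ring
    _ ≤ 1 / (n : ℝ) ^ 4 := by
        rw [mul_one_div, div_le_div_iff₀ (by positivity) (by positivity), one_mul]
        calc 4 * (n : ℝ) ^ 4 ≤ (n : ℝ) * (n : ℝ) ^ 4 :=
              mul_le_mul_of_nonneg_right (by linarith) (by positivity)
          _ = (n : ℝ) ^ 5 := by ring

/-- All large `n` are big. -/
lemma eventually_big : ∃ N : ℕ, ∀ n : ℕ, N ≤ n → Big n := by
  have h1 : ∀ᶠ x : ℝ in Filter.atTop, (10:ℝ) ≤ Real.log x :=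
    Real.tendsto_log_atTop.eventually_ge_atTop 10
  have h2 : ∀ᶠ x : ℝ in Filter.atTop, (10:ℝ) ^ 60 * Real.log x ^ 20 ≤ x := by
    have h := (Real.isLittleO_pow_log_id_atTop (n := 20)).bound
      (show (0:ℝ) < 1 / 10 ^ 60 by positivity)
    filter_upwards [h, Filter.eventually_ge_atTop (0:ℝ)] with x hx hx0
    rw [Real.norm_eq_abs, Real.norm_eq_abs, id, abs_of_nonneg hx0] at hx
    have := (le_abs_self _).trans hx
    rw [div_mul_eq_mul_div, one_mul, le_div_iff₀ (by positivity)] at this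
    linarith
  obtain ⟨N, hN⟩ := Filter.eventually_atTop.1
    ((tendsto_natCast_atTop_atTop (R := ℝ)).eventually (h1.and h2))
  exact ⟨N, fun n hn => hN n hn⟩

/-- Two-sided polylogarithmic bounds for random triangle removal, from the separate parts. -/
theorem polylogBounds (hp : PsiFacts) (hM : MDrift) (hP : PDrift) (hW : WDrift)
    (hLow : LowerBounded) (hS0 : StartState) (hS : StepFacts) :
    ∃ (C : ℝ) (N : ℕ), 0 < C ∧ ∀ n : ℕ, N ≤ n →
      (n : ℝ) * Real.sqrt n / (C * Real.log n ^ 6) ≤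
          expectFinal (fun e => (e : ℝ)) (complete n) ∧
      expectFinal (fun e => (e : ℝ)) (complete n) ≤
          C * Real.log n ^ 2 * ((n : ℝ) * Real.sqrt n) ∧
      expectFinal (fun e => if C * Real.log n ^ 2 * ((n : ℝ) * Real.sqrt n) < (e : ℝ)
          then 1 else 0) (complete n) ≤ 1 / (n : ℝ) ^ 4 := by
  obtain ⟨N, hN⟩ := eventually_big
  refine ⟨10 ^ 24, N, by positivity, fun n hn' => ?_⟩
  have hn := hN n hn'
  obtain ⟨hl, hn0, hn10⟩ := big_pos hn
  have hlam : Real.log n = lam n := rfl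
  rw [hlam]
  have hz := zz_start hS0 hn
  have hz0 := zz_nonneg (complete n)
  set B := (n : ℝ) * Real.sqrt n with hB
  have hB0 : 0 ≤ B := by positivity
  have hl2 : 0 ≤ lam n ^ 2 * B := by positivity
  refine ⟨?_, ?_, ?_⟩
  · have h0 : ll n / 2 ≤ mu (complete n) := by
      rw [(hS0 n hn).2.1, ll]
      have h1 : lam n ^ 4 ≤ lam n ^ 20 :=
        pow_le_pow_right₀ (by linarith [hn.1]) (by norm_num)
      nlinarith [hn.2, pow_nonneg hl.le 4]
    have h := lower_bound hp hM hP hW hLow hS hn h0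
    rw [← hB] at h
    have h1 : 1 / (n : ℝ) ^ 4 ≤ 1 / 2 := by
      gcongr
      calc (2:ℝ) ≤ n := by linarith
        _ ≤ (n : ℝ) ^ 4 := le_self_pow₀ (by linarith) (by norm_num)
    refine le_trans ?_ h
    have h2 : B / (10 ^ 23 * lam n ^ 6) * (1 / 10) ≤
        B / (10 ^ 23 * lam n ^ 6) * (1 - zz (complete n)) :=
      mul_le_mul_of_nonneg_left (by linarith) (by positivity)
    refine le_trans (le_of_eq ?_) h2
    field_simp
  · have h := upper_bound hM hP hW hS hn (fun e => (e : ℝ)) (a := 10 ^ 9 * lam n ^ 2 * B)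
      (b := (n : ℝ) ^ 2) (by positivity) (by positivity) (fun m hm => hm) (fun m hm => hm)
    have h1 : (n : ℝ) ^ 2 * zz (complete n) ≤ 1 := by
      calc (n : ℝ) ^ 2 * zz (complete n) ≤ (n : ℝ) ^ 2 * (1 / (n : ℝ) ^ 4) :=
            mul_le_mul_of_nonneg_left hz (by positivity)
        _ = 1 / (n : ℝ) ^ 2 := by field_simp
        _ ≤ 1 := (div_le_one (by positivity)).2 (one_le_pow₀ (by linarith))
    have h2 : 1 ≤ lam n ^ 2 * B := by
      refine one_le_mul_of_one_le_of_one_le (one_le_pow₀ (by linarith [hn.1])) ?_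
      exact one_le_mul_of_one_le_of_one_le (by linarith) (Real.one_le_sqrt.2 (by linarith))
    linarith
  · refine le_trans (upper_bound hM hP hW hS hn _ (a := 0) (b := 1) le_rfl zero_le_one
      (fun m _ => ?_) fun m hm => ?_) ?_
    · split_ifs <;> norm_num
    · rw [if_neg]
      rw [← hB] at hm
      linarith
    · linarith

end Vale.Agent.P046
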