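import Vale.Agent.P046.Lower
import Vale.Agent.P046.Main

/-!
P046: the final edge count is polylogarithmically close to `n ^ (3 / 2)` from below with high
probability, by an exponential version of the submartingale of `Lower`.
-/

namespace Vale.Agent.P046

open Finset

namespace Lower

lemma wt_le {n : ℕ} {Y : ℕ} (hY : 1 ≤ Y) (G : Gr n) (g : Finset (Fin n)) :
    wt Y G g ≤ 16 * (Y : ℝ) + 3 := by
  have hY' : (1 : ℝ) ≤ Y := by exact_mod_cast hY
  have h1 := w2_le_one (deg G g)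
  have h2 : one1 G g ≤ 1 := by unfold one1; split_ifs <;> norm_num
  unfold wt
  split_ifs <;> linarith

lemma lost_le_deg {n : ℕ} (G : Gr n) (g D : Finset (Fin n)) : lost G g D ≤ deg G g := by
  have := deg_rem_add_lost G g D
  omega

lemma wt_change {n : ℕ} {Y : ℕ} (hY : 1 ≤ Y) (G : Gr n) (D g : Finset (Fin n)) :
    |wt Y (rem G D) g - wt Y G g| ≤ (16 * (Y : ℝ) + 3) * (lost G g D : ℝ)
      + 3 / 2 * ∑ E ∈ through G g, ∑ f ∈ sides E, (lost G f D : ℝ) := by
  have hsum : 0 ≤ ∑ E ∈ through G g, ∑ f ∈ sides E, (lost G f D : ℝ) :=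
    sum_nonneg fun E _ => sum_nonneg fun f _ => Nat.cast_nonneg _
  have hadd := deg_rem_add_lost G g D
  rcases Nat.eq_zero_or_pos (lost G g D) with hl | hl
  · have hd : deg (rem G D) g = deg G g := by omega
    rw [hl, Nat.cast_zero, mul_zero, zero_add]
    by_cases hall : ∀ E ∈ through G g, ∀ f ∈ sides E, lost G f D = 0
    · have hsame : ∀ E ∈ through G g, ∀ f ∈ sides E, deg (rem G D) f = deg G f := by
        intro E hE f hf
        have := deg_rem_add_lost G f D
        have := hall E hE f hf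
        omega
      have hth : through (rem G D) g = through G g := by
        refine eq_of_subset_of_card_le (fun E hE => ?_) (by rw [card_through, card_through, hd])
        rw [mem_through, tri_rem, mem_filter] at hE
        exact mem_through.2 ⟨hE.1.1, hE.2⟩
      have hiso : Iso (rem G D) g ↔ Iso G g := by
        constructor
        · intro h E hE hgE f hf
          have hm : E ∈ through G g := mem_through.2 ⟨hE, hgE⟩
          have hm' := hm
          rw [← hth, mem_through] at hm'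
          rw [← hsame E hm f hf]
          exact h E hm'.1 hgE f hf
        · intro h E hE hgE f hf
          have hm : E ∈ through (rem G D) g := mem_through.2 ⟨hE, hgE⟩
          rw [hth] at hm
          rw [hsame E hm f hf]
          exact h E (mem_through.1 hm).1 hgE f hf
      have : one1 (rem G D) g = one1 G g := by
        classical
        simp only [one1, hd, hiso]
      rw [wt, wt, hd, this, sub_self, abs_zero]
      positivity
    · push Not at hall
      obtain ⟨E, hE, f, hf, hne⟩ := hall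
      have h1 : (1 : ℝ) ≤ ∑ E ∈ through G g, ∑ f ∈ sides E, (lost G f D : ℝ) := by
        have h0 : (1 : ℝ) ≤ lost G f D := by exact_mod_cast Nat.one_le_iff_ne_zero.2 hne
        refine le_trans ?_ (single_le_sum (f := fun E => ∑ f ∈ sides E, (lost G f D : ℝ))
          (fun E _ => sum_nonneg fun f _ => Nat.cast_nonneg _) hE)
        exact h0.trans (single_le_sum (f := fun f => (lost G f D : ℝ))
          (fun f _ => Nat.cast_nonneg _) hf)
      have h2 : |wt Y (rem G D) g - wt Y G g| ≤ 3 / 2 := by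
        have a1 : 0 ≤ one1 (rem G D) g := one1_nonneg _ _
        have a2 : 0 ≤ one1 G g := one1_nonneg _ _
        have b1 : one1 (rem G D) g ≤ 1 := by unfold one1; split_ifs <;> norm_num
        have b2 : one1 G g ≤ 1 := by unfold one1; split_ifs <;> norm_num
        rw [wt, wt, hd, abs_le]
        split_ifs <;> constructor <;> linarith
      linarith
  · have h1 : (1 : ℝ) ≤ (lost G g D : ℝ) := by exact_mod_cast hl
    have hY' : (1 : ℝ) ≤ Y := by exact_mod_cast hY
    have := wt_le hY (rem G D) g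
    have := wt_le hY G g
    have := wt_nonneg Y (rem G D) g
    have := wt_nonneg Y G g
    have := le_mul_of_one_le_right (show (0 : ℝ) ≤ 16 * Y + 3 by linarith) h1
    rw [abs_le]
    constructor <;> linarith

/-- One step changes the submartingale by `O(Y ^ 2)`. -/
lemma abs_step {n : ℕ} {G : Gr n} {Y : ℕ} (h1 : 1 ≤ Y) (hY : ∀ g ∈ G, deg G g ≤ Y)
    {D : Finset (Fin n)} (hD : D ∈ tri G) :
    |hh Y (rem G D) - hh Y G| ≤ 216 * (Y : ℝ) ^ 2 := by
  have hY' : (1 : ℝ) ≤ Y := by exact_mod_cast h1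
  have hc := card_sides (mem_tri.1 hD).1
  have hsd : (sdeg G D : ℝ) ≤ 3 * Y := by
    have : sdeg G D ≤ 3 * Y := by
      refine le_trans (sum_le_sum fun g hg => hY g ((mem_tri.1 hD).2 hg)) ?_
      rw [sum_const, hc, smul_eq_mul]
    exact_mod_cast this
  have hrem : ∑ g ∈ rem G D, (lost G g D : ℝ) ≤ 6 * Y := by
    have h := congrArg (Nat.cast : ℕ → ℝ) (sum_lost_edges hD)
    push_cast at h
    linarith
  have hall : ∑ g ∈ G, (lost G g D : ℝ) ≤ 9 * Y := by
    rw [← sum_sdiff (mem_tri.1 hD).2]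
    have h3 : ∑ g ∈ sides D, (lost G g D : ℝ) ≤ ∑ _g ∈ sides D, (Y : ℝ) :=
      sum_le_sum fun g hg => by
        exact_mod_cast (lost_le_deg G g D).trans (hY g ((mem_tri.1 hD).2 hg))
    rw [sum_const, hc, nsmul_eq_mul] at h3
    simp only [rem] at hrem
    push_cast at h3
    linarith
  have hdouble : ∑ g ∈ G, ∑ E ∈ through G g, ∑ f ∈ sides E, (lost G f D : ℝ)
      ≤ 3 * Y * (9 * Y) := by
    rw [swap_sides G fun _ E => ∑ f ∈ sides E, (lost G f D : ℝ)]
    have e : ∀ E ∈ tri G, (∑ _g ∈ sides E, ∑ f ∈ sides E, (lost G f D : ℝ))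
        = 3 * ∑ f ∈ sides E, (lost G f D : ℝ) := fun E hE => by
      rw [sum_const, card_sides (mem_tri.1 hE).1, nsmul_eq_mul]; norm_num
    rw [sum_congr rfl e, ← mul_sum, sum_tri_sides, mul_assoc 3 (Y : ℝ)]
    refine mul_le_mul_of_nonneg_left ?_ (by norm_num)
    refine le_trans ?_ (mul_le_mul_of_nonneg_left hall (Nat.cast_nonneg Y))
    rw [mul_sum]
    refine sum_le_sum fun f hf => ?_
    rw [nsmul_eq_mul]
    exact mul_le_mul_of_nonneg_right (by exact_mod_cast hY f hf) (Nat.cast_nonneg _)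
  have hout : ∑ g ∈ sides D, wt Y G g ≤ 3 * (16 * (Y : ℝ) + 3) := by
    refine (sum_le_sum fun g _ => wt_le h1 G g).trans ?_
    rw [sum_const, hc, nsmul_eq_mul]
    norm_num
  have hout0 : 0 ≤ ∑ g ∈ sides D, wt Y G g := sum_nonneg fun g _ => wt_nonneg Y G g
  have hin : |∑ g ∈ rem G D, (wt Y (rem G D) g - wt Y G g)|
      ≤ (16 * (Y : ℝ) + 3) * (6 * Y) + 3 / 2 * (3 * Y * (9 * Y)) := by
    refine (abs_sum_le_sum_abs _ _).trans ((sum_le_sum fun g _ => wt_change h1 G D g).trans ?_)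
    rw [sum_add_distrib, ← mul_sum, ← mul_sum]
    refine add_le_add (mul_le_mul_of_nonneg_left hrem (by linarith))
      (mul_le_mul_of_nonneg_left (le_trans ?_ hdouble) (by norm_num))
    exact sum_le_sum_of_subset_of_nonneg (rem_subset G D)
      fun g _ _ => sum_nonneg fun E _ => sum_nonneg fun f _ => Nat.cast_nonneg _
  have e : hh Y (rem G D) - hh Y G
      = ∑ g ∈ rem G D, (wt Y (rem G D) g - wt Y G g) - ∑ g ∈ sides D, wt Y G g := by
    rw [hh, hh, ← sum_sdiff (mem_tri.1 hD).2 (f := fun g => wt Y G g), sum_sub_distrib]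
    simp only [rem]
    ring
  rw [e]
  refine (abs_sub _ _).trans ?_
  rw [abs_of_nonneg hout0]
  nlinarith

/-- The exponential potential for the lower tail. -/
noncomputable def tailPot {n : ℕ} (Y : ℕ) (l : ℝ) (G : Gr n) : ℝ :=
  Real.exp (-(l * hh Y G) + l ^ 2 * (216 * (Y : ℝ) ^ 2) ^ 2 * (eR G / 3))

lemma tailPot_drift {n : ℕ} {G : Gr n} {Y : ℕ} (h1 : 1 ≤ Y) (hY : ∀ g ∈ G, deg G g ≤ Y)
    {l : ℝ} (hl : 0 ≤ l) (hlJ : l * (216 * (Y : ℝ) ^ 2) ≤ 1) :
    ∑ D ∈ tri G, tailPot Y l (rem G D) ≤ tR G * tailPot Y l G := by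
  set J := 216 * (Y : ℝ) ^ 2 with hJ
  have hJ0 : 0 ≤ J := by positivity
  have key : ∀ D ∈ tri G, tailPot Y l (rem G D) ≤ tailPot Y l G * Real.exp (-(l ^ 2 * J ^ 2))
      * (1 - l * (hh Y (rem G D) - hh Y G) + l ^ 2 * J ^ 2) := by
    intro D hD
    have he : eR (rem G D) = eR G - 3 := by
      have := congrArg (Nat.cast : ℕ → ℝ) (card_rem hD)
      push_cast at this
      simp only [eR]
      linarith
    have e : tailPot Y l (rem G D) = tailPot Y l G * Real.exp (-(l ^ 2 * J ^ 2))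
        * Real.exp (-(l * (hh Y (rem G D) - hh Y G))) := by
      rw [tailPot, tailPot, he, ← Real.exp_add, ← Real.exp_add, ← hJ]
      congr 1
      ring
    rw [e]
    refine mul_le_mul_of_nonneg_left ?_ (mul_nonneg (Real.exp_pos _).le (Real.exp_pos _).le)
    set z := -(l * (hh Y (rem G D) - hh Y G)) with hz
    have hzJ : |z| ≤ l * J := by
      rw [hz, abs_neg, abs_mul, abs_of_nonneg hl]
      exact mul_le_mul_of_nonneg_left (abs_step h1 hY hD) hl
    have hexp := (abs_le.1 (Real.abs_exp_sub_one_sub_id_le (hzJ.trans hlJ))).2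
    have hz2 : z ^ 2 ≤ l ^ 2 * J ^ 2 := by
      rw [← mul_pow, ← sq_abs z]
      exact pow_le_pow_left₀ (abs_nonneg z) hzJ 2
    linarith
  refine (sum_le_sum key).trans ?_
  rw [← mul_sum, mul_comm (tR G), mul_assoc]
  refine mul_le_mul_of_nonneg_left ?_ (Real.exp_pos _).le
  have hd := mul_le_mul_of_nonneg_left (drift h1 hY) hl
  rw [sum_add_distrib, sum_sub_distrib, sum_const, sum_const, ← mul_sum, sum_sub_distrib,
    sum_const, nsmul_eq_mul, nsmul_eq_mul, nsmul_eq_mul, mul_one]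
  rw [Real.exp_neg, inv_mul_le_iff₀ (Real.exp_pos _)]
  have hx := Real.add_one_le_exp (l ^ 2 * J ^ 2)
  have ht : 0 ≤ tR G := Nat.cast_nonneg _
  have := mul_le_mul_of_nonneg_right hx ht
  simp only [tR] at this hd ⊢
  linarith

lemma expectFinal_le_tailPot {n : ℕ} (G : Gr n) {Y : ℕ} (h1 : 1 ≤ Y)
    (hY : ∀ g ∈ G, deg G g ≤ Y) {l : ℝ} (hl : 0 ≤ l) (hlJ : l * (216 * (Y : ℝ) ^ 2) ≤ 1)
    (φ : ℕ → ℝ) {K : ℝ} (hK : 0 ≤ K)
    (hφ : ∀ m : ℕ, φ m ≤ K * Real.exp (-(l * (16 * (Y : ℝ) * m)))) :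
    expectFinal φ G ≤ K * tailPot Y l G := by
  refine expectFinal_le_potential φ (fun G => K * tailPot Y l G)
    (fun G => ∀ g ∈ G, deg G g ≤ Y) (fun G => tri G ≠ ∅) ?_ (fun G _ h => h) ?_ ?_ G hY
  · exact fun G hG _ D _ g hg => (deg_rem_le G D g).trans (hG g (rem_subset G D hg))
  · intro G hG _
    rw [← mul_sum, mul_left_comm]
    exact mul_le_mul_of_nonneg_left (tailPot_drift h1 hG hl hlJ) hK
  · intro G _ h
    rw [not_not] at h
    rw [expectFinal_stop φ h]
    refine (hφ _).trans (mul_le_mul_of_nonneg_left ?_ hK)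
    rw [tailPot]
    refine Real.exp_le_exp.2 ?_
    have h0 : ∀ g ∈ G, deg G g = 0 := fun g _ => by simp [deg, h]
    have e : hh Y G = 16 * (Y : ℝ) * G.card := by
      rw [hh, sum_congr rfl (fun g hg => show wt Y G g = 16 * (Y : ℝ) from if_pos (h0 g hg)),
        sum_const, nsmul_eq_mul]
      ring
    rw [e]
    exact le_add_of_nonneg_right (mul_nonneg (by positivity) (by unfold eR; positivity))

end Lower

/-- Few edges are left only with exponentially small probability. -/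
theorem lowerWhp {n : ℕ} (G : Gr n) (Y : ℕ) (h1 : 1 ≤ Y) (hY : ∀ g ∈ G, deg G g ≤ Y)
    (hne : 0 < G.card) :
    expectFinal (fun e =>
        if (e : ℝ) < ((G.filter (fun g => 2 ≤ deg G g)).card : ℝ) / (32 * (Y : ℝ) * Real.sqrt Y)
        then 1 else 0) G ≤
      Real.exp (-(((G.filter (fun g => 2 ≤ deg G g)).card : ℝ) ^ 2
        / (10 ^ 6 * (Y : ℝ) ^ 5 * (G.card : ℝ)))) := by
  set c := ((G.filter (fun g => 2 ≤ deg G g)).card : ℝ) with hc
  have hc0 : 0 ≤ c := Nat.cast_nonneg _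
  have hY' : (1 : ℝ) ≤ Y := by exact_mod_cast h1
  have hY0 : (0 : ℝ) < Y := by linarith
  set r := Real.sqrt (Y : ℝ) with hr
  have hr0 : 0 < r := Real.sqrt_pos.2 hY0
  have hrr : r * r = Y := Real.mul_self_sqrt hY0.le
  have hG : (0 : ℝ) < G.card := by exact_mod_cast hne
  have hcG : c ≤ G.card := by
    rw [hc]; exact_mod_cast card_filter_le G _
  set J := 216 * (Y : ℝ) ^ 2 with hJ
  set l := 3 * c / (4 * r * J ^ 2 * G.card) with hl
  have hl0 : 0 ≤ l := by positivity
  have hr1 : 1 ≤ r := Real.one_le_sqrt.2 hY'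
  have hlJ : l * J ≤ 1 := by
    rw [hl, div_mul_eq_mul_div, div_le_one (by positivity)]
    have hJ1 : 1 ≤ J := by rw [hJ]; nlinarith
    have h2 : (G.card : ℝ) ≤ r * J * G.card :=
      le_mul_of_one_le_left hG.le (one_le_mul_of_one_le_of_one_le hr1 hJ1)
    calc 3 * c * J ≤ 4 * (G.card : ℝ) * J :=
          mul_le_mul_of_nonneg_right (by linarith) (by linarith)
      _ ≤ 4 * (r * J * G.card) * J :=
          mul_le_mul_of_nonneg_right (by linarith) (by linarith)
      _ = _ := by ring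
  have h := Lower.expectFinal_le_tailPot G h1 hY hl0 hlJ
    (fun e => if (e : ℝ) < c / (32 * (Y : ℝ) * r) then (1 : ℝ) else 0)
    (K := Real.exp (l * (c / (2 * r)))) (Real.exp_pos _).le fun m => by
      rw [← Real.exp_add]
      split_ifs with hm
      · refine Real.one_le_exp ?_
        rw [lt_div_iff₀ (by positivity)] at hm
        rw [← sub_eq_add_neg, ← mul_sub]
        refine mul_nonneg hl0 ?_
        rw [sub_nonneg, le_div_iff₀ (by positivity)]
        linarith
      · exact (Real.exp_pos _).le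
  refine h.trans ?_
  rw [Lower.tailPot, ← Real.exp_add, Real.exp_le_exp]
  have hh0 : c / r ≤ Lower.hh Y G := by
    rw [div_le_iff₀ hr0, mul_comm]
    exact Lower.card_two_le G hY
  have h3 := mul_le_mul_of_nonneg_left hh0 hl0
  have key : l * (c / (2 * r)) - l * (c / r) + l ^ 2 * J ^ 2 * ((G.card : ℝ) / 3)
      = -(c ^ 2 / (248832 * (Y : ℝ) ^ 5 * G.card)) := by
    rw [hl, hJ]
    field_simp
    rw [show r ^ 2 = (Y : ℝ) by rw [pow_two, hrr]]
    ring
  have h4 : c ^ 2 / (10 ^ 6 * (Y : ℝ) ^ 5 * G.card)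
      ≤ c ^ 2 / (248832 * (Y : ℝ) ^ 5 * G.card) := by
    refine div_le_div_of_nonneg_left (sq_nonneg c) (by positivity) ?_
    refine mul_le_mul_of_nonneg_right (mul_le_mul_of_nonneg_right ?_ (by positivity)) hG.le
    norm_num
  simp only [← hJ, eR] at *
  linarith

lemma expectFinal_mono {n : ℕ} (φ ψ : ℕ → ℝ) (h : ∀ m, φ m ≤ ψ m) :
    ∀ G : Gr n, expectFinal φ G ≤ expectFinal ψ G := by
  intro G
  induction G using Finset.strongInduction with
  | H G ih =>
    by_cases hT : tri G = ∅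
    · rw [expectFinal_stop φ hT, expectFinal_stop ψ hT]; exact h _
    · rw [expectFinal_step φ hT, expectFinal_step ψ hT]
      refine div_le_div_of_nonneg_right (sum_le_sum fun D hD => ih _ ?_) (Nat.cast_nonneg _)
      exact (rem_subset G D).ssubset_of_ne fun h => (card_rem_lt hD).ne (by rw [h])

/-- At a stopped good state few edges are left only with polynomially small probability. -/
lemma tail_at_stop (hp : PsiFacts) {n : ℕ} (hn : Big n) {G : Gr n} (hI : ll n / 2 ≤ mu G)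
    (hmu : mu G < ll n) (hw : |ww G - w0 n| ≤ 1) (hpp : pp G ≤ bb n)
    (hd : ∀ g ∈ G, (deg G g : ℝ) ≤ kk n * mu G) (hm : 0 < mu G) (he : 0 < eR G) :
    expectFinal (fun e =>
        if (e : ℝ) < (n : ℝ) * Real.sqrt n / (10 ^ 23 * lam n ^ 6) then 1 else 0) G
      ≤ 1 / (n : ℝ) ^ 5 := by
  obtain ⟨hl, hn0, hn10⟩ := big_pos hn
  have hl1 : 1 ≤ lam n := by linarith [hn.1]
  have hkk : 0 ≤ kk n := by rw [kk]; positivity
  set Y := ⌈kk n * ll n⌉₊ with hY
  have hkl : 1 ≤ kk n * ll n := by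
    rw [kk, ll]
    have : (1:ℝ) ≤ lam n * lam n ^ 4 := one_le_mul_of_one_le_of_one_le hl1 (one_le_pow₀ hl1)
    linarith
  have hY1 : 1 ≤ Y := Nat.one_le_iff_ne_zero.2 (Nat.ceil_pos.2 (by linarith)).ne'
  have hdeg : ∀ g ∈ G, deg G g ≤ Y := by
    intro g hg
    have := (hd g hg).trans (mul_le_mul_of_nonneg_left hmu.le hkk)
    exact_mod_cast this.trans (Nat.le_ceil (kk n * ll n))
  have hYle : (Y : ℝ) ≤ 64 * 10 ^ 17 * lam n ^ 5 := by
    have h2 := Nat.ceil_lt_add_one (show 0 ≤ kk n * ll n by linarith)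
    have e : kk n * ll n = 32 * 10 ^ 17 * lam n ^ 5 := by rw [kk, ll]; ring
    rw [← hY] at h2
    linarith
  have hY0 : (0 : ℝ) < Y := by exact_mod_cast hY1
  have hYY : (Y : ℝ) * Real.sqrt Y ≤ 2 * 10 ^ 28 * lam n ^ 8 := by
    have hsY : Real.sqrt Y ≤ 3 * 10 ^ 9 * lam n ^ 3 := by
      rw [Real.sqrt_le_iff]
      refine ⟨by positivity, hYle.trans ?_⟩
      have : lam n ^ 5 ≤ lam n ^ 6 := pow_le_pow_right₀ hl1 (by norm_num)
      linarith [show (0:ℝ) ≤ lam n ^ 5 by positivity]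
    calc (Y : ℝ) * Real.sqrt Y ≤ 64 * 10 ^ 17 * lam n ^ 5 * (3 * 10 ^ 9 * lam n ^ 3) :=
          mul_le_mul hYle hsY (Real.sqrt_nonneg _) (by positivity)
      _ ≤ _ := by linarith [show (0:ℝ) ≤ lam n ^ 8 by positivity]
  set B := (n : ℝ) * Real.sqrt n with hB
  have hB0 : 0 ≤ B := by positivity
  have he2 : (6 * 10 ^ 7 * lam n ^ 2 * B) ^ 2 ≤ eR G ^ 2 := by
    have h3 := (tube_edges hn hw hm he).1
    have h4 : ll n / 2 * (n : ℝ) ^ 3 ≤ mu G * (n : ℝ) ^ 3 :=
      mul_le_mul_of_nonneg_right hI (by positivity)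
    rw [ll] at h4
    rw [mul_pow, hB, ← cube_eq hn0.le]
    nlinarith [mul_nonneg (pow_nonneg hl.le 4) (pow_nonneg hn0.le 3)]
  have he3 := (pow_le_pow_iff_left₀ (by positivity) he.le two_ne_zero).1 he2
  set c := ((G.filter (fun g => 2 ≤ deg G g)).card : ℝ) with hc
  have hcn : eR G / 2 ≤ c := count_two hp hn hI hpp he
  have hthr : B / (10 ^ 23 * lam n ^ 6) ≤ c / (32 * (Y : ℝ) * Real.sqrt Y) := by
    rw [div_le_div_iff₀ (by positivity) (by positivity)]
    calc B * (32 * (Y : ℝ) * Real.sqrt Y) ≤ B * (32 * (2 * 10 ^ 28 * lam n ^ 8)) :=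
          mul_le_mul_of_nonneg_left (by linarith) hB0
      _ = 64 * 10 ^ 28 / (3 * 10 ^ 7) * lam n ^ 6 * (3 * 10 ^ 7 * lam n ^ 2 * B) := by ring
      _ ≤ 10 ^ 23 * lam n ^ 6 * c := by
          refine mul_le_mul (mul_le_mul_of_nonneg_right (by norm_num) (by positivity))
            (by linarith) (by positivity) (by positivity)
      _ = c * (10 ^ 23 * lam n ^ 6) := by ring
  refine (expectFinal_mono _ (fun e =>
    if (e : ℝ) < c / (32 * (Y : ℝ) * Real.sqrt Y) then (1 : ℝ) else 0) (fun m => ?_) G).trans ?_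
  · split_ifs <;> first | exact le_rfl | exact zero_le_one | linarith
  have hne : 0 < G.card := by
    have : (0 : ℝ) < (G.card : ℝ) := he
    exact_mod_cast this
  refine (lowerWhp G Y hY1 hdeg hne).trans ?_
  have h5 : Real.exp (-(5 * lam n)) = 1 / (n : ℝ) ^ 5 := by
    rw [Real.exp_neg, show (5 : ℝ) * lam n = ((5 : ℕ) : ℝ) * lam n by norm_num, Real.exp_nat_mul,
      lam, Real.exp_log hn0, one_div]
  rw [← h5, Real.exp_le_exp, neg_le_neg_iff, le_div_iff₀ (by positivity)]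
  have hBn : (10 ^ 60 * lam n ^ 20) ^ 3 ≤ B ^ 2 := by
    rw [hB, ← cube_eq hn0.le]
    exact pow_le_pow_left₀ (by positivity) hn.2 3
  have hBbig : 10 ^ 90 * lam n ^ 30 ≤ B := by
    refine (pow_le_pow_iff_left₀ (by positivity) hB0 two_ne_zero).1 (le_trans (le_of_eq ?_) hBn)
    ring
  have hY5 : (Y : ℝ) ^ 5 ≤ (64 * 10 ^ 17) ^ 5 * lam n ^ 25 := by
    refine (pow_le_pow_left₀ hY0.le hYle 5).trans (le_of_eq ?_)
    ring
  have hlam : (10 : ℝ) ^ 6 * lam n ^ 26 ≤ lam n ^ 32 := by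
    calc (10 : ℝ) ^ 6 * lam n ^ 26 ≤ lam n ^ 6 * lam n ^ 26 :=
          mul_le_mul_of_nonneg_right (pow_le_pow_left₀ (by norm_num) hn.1 6) (by positivity)
      _ = _ := by ring
  have he4 : 6 * 10 ^ 97 * lam n ^ 32 ≤ eR G := by
    refine le_trans ?_ he3
    calc (6 : ℝ) * 10 ^ 97 * lam n ^ 32 = 6 * 10 ^ 7 * lam n ^ 2 * (10 ^ 90 * lam n ^ 30) := by ring
      _ ≤ _ := mul_le_mul_of_nonneg_left hBbig (by positivity)
  calc 5 * lam n * (10 ^ 6 * (Y : ℝ) ^ 5 * (G.card : ℝ))
      ≤ 5 * lam n * (10 ^ 6 * ((64 * 10 ^ 17) ^ 5 * lam n ^ 25) * eR G) := by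
        refine mul_le_mul_of_nonneg_left ?_ (by positivity)
        exact mul_le_mul (mul_le_mul_of_nonneg_left hY5 (by norm_num)) le_rfl he.le (by positivity)
    _ = (5 * 10 ^ 6 * (64 * 10 ^ 17) ^ 5) * lam n ^ 26 * eR G := by ring
    _ ≤ 6 * 10 ^ 97 * lam n ^ 32 / 4 * eR G := by
        refine mul_le_mul_of_nonneg_right ?_ he.le
        calc (5 * 10 ^ 6 * (64 * 10 ^ 17) ^ 5 : ℝ) * lam n ^ 26
            ≤ (6 * 10 ^ 97 / 4 * 10 ^ 6) * lam n ^ 26 :=
              mul_le_mul_of_nonneg_right (by norm_num) (by positivity)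
          _ = 6 * 10 ^ 97 / 4 * (10 ^ 6 * lam n ^ 26) := by ring
          _ ≤ 6 * 10 ^ 97 / 4 * lam n ^ 32 := mul_le_mul_of_nonneg_left hlam (by positivity)
          _ = _ := by ring
    _ ≤ (eR G / 2) ^ 2 := by
        have := mul_le_mul_of_nonneg_right he4 he.le
        linarith
    _ ≤ c ^ 2 := pow_le_pow_left₀ (by linarith) hcn 2

/-- With high probability at least `n ^ (3 / 2)` over a power of `log n` edges are left. -/
theorem lowerWhpMain (hp : PsiFacts) (hM : MDrift) (hP : PDrift) (hW : WDrift)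
    (hS0 : StartState) (hS : StepFacts) :
    ∃ (C : ℝ) (N : ℕ), 0 < C ∧ ∀ n : ℕ, N ≤ n →
      expectFinal (fun e => if (e : ℝ) < (n : ℝ) * Real.sqrt n / (C * Real.log n ^ 6)
          then 1 else 0) (complete n) ≤ 2 / (n : ℝ) ^ 4 := by
  obtain ⟨N, hN⟩ := eventually_big
  refine ⟨10 ^ 23, N, by positivity, fun n hn' => ?_⟩
  have hn := hN n hn'
  obtain ⟨hl, hn0, hn10⟩ := big_pos hn
  rw [show Real.log n = lam n from rfl]
  set φ : ℕ → ℝ := fun e =>
    if (e : ℝ) < (n : ℝ) * Real.sqrt n / (10 ^ 23 * lam n ^ 6) then 1 else 0 with hφ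
  have hφ1 : ∀ m, φ m ≤ 1 := fun m => by simp only [hφ]; split_ifs <;> norm_num
  have h0 : ll n / 2 ≤ mu (complete n) := by
    rw [(hS0 n hn).2.1, ll]
    have h1 : lam n ^ 4 ≤ lam n ^ 20 :=
      pow_le_pow_right₀ (by linarith [hn.1]) (by norm_num)
    nlinarith [hn.2, pow_nonneg hl.le 4]
  have key := expectFinal_le_potential φ (fun G => zz G + 1 / (n : ℝ) ^ 5)
    (fun G => ll n / 2 ≤ mu G) Good ?_ ?_ ?_ ?_ (complete n) h0
  · refine key.trans ?_
    have hz := zz_start hS0 hn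
    have h5 : 1 / (n : ℝ) ^ 5 ≤ 1 / (n : ℝ) ^ 4 :=
      div_le_div_of_nonneg_left zero_le_one (by positivity)
        (pow_le_pow_right₀ (by linarith) (by norm_num))
    rw [show (2 : ℝ) / (n : ℝ) ^ 4 = 1 / (n : ℝ) ^ 4 + 1 / (n : ℝ) ^ 4 by ring]
    linarith
  · intro G _ hG D hD
    have h1 := ((hS n G hn hG).2.2.2 D hD).2.2.2.2.2.2.2
    linarith [hG.1]
  · intro G _ hG h0'
    have := (hS n G hn hG).2.2.1
    rw [tR, h0', card_empty, Nat.cast_zero] at this
    exact lt_irrefl 0 this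
  · intro G _ hG
    rw [sum_add_distrib, sum_const, nsmul_eq_mul]
    have := sum_zz_rem hM hP hW hn hG
    simp only [tR] at this ⊢
    linarith
  · intro G hI hG
    have hz := zz_nonneg G
    have h5 : 0 ≤ 1 / (n : ℝ) ^ 5 := by positivity
    rcases stop_cases hn hG with h | ⟨hmu, hw, hpp, hd, hm, he⟩
    · have := expectFinal_le_const φ 1 G fun m _ => hφ1 m
      linarith
    · have := tail_at_stop hp hn hI hmu hw hpp hd hm he
      simp only [hφ] at this ⊢
      linarith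

end Vale.Agent.P046
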