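import Vale.Agent.P046.Main
import Vale.Agent.P046.LowerWhp

/-!
P046: the bounds on the mean and on both tails with a common constant.
-/

namespace Vale.Agent.P046

open Finset

lemma expectFinal_mono_fun {n : ℕ} (φ χ : ℕ → ℝ) (h : ∀ m, φ m ≤ χ m) :
    ∀ G : Gr n, expectFinal φ G ≤ expectFinal χ G := by
  intro G
  induction G using Finset.strongInduction with
  | H G ih =>
    by_cases hT : tri G = ∅
    · rw [expectFinal_stop φ hT, expectFinal_stop χ hT]; exact h _
    · rw [expectFinal_step φ hT, expectFinal_step χ hT]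
      refine div_le_div_of_nonneg_right (sum_le_sum fun D hD => ih _ ?_) (Nat.cast_nonneg _)
      exact (rem_subset G D).ssubset_of_ne fun e => (card_rem_lt hD).ne (by rw [e])

theorem bothTails (hp : PsiFacts) (hM : MDrift) (hP : PDrift) (hW : WDrift)
    (hLow : LowerBounded) (hS0 : StartState) (hS : StepFacts) :
    ∃ (C : ℝ) (N : ℕ), 0 < C ∧ ∀ n : ℕ, N ≤ n →
      (n : ℝ) * Real.sqrt n / (C * Real.log n ^ 6) ≤
          expectFinal (fun e => (e : ℝ)) (complete n) ∧
      expectFinal (fun e => (e : ℝ)) (complete n) ≤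
          C * Real.log n ^ 2 * ((n : ℝ) * Real.sqrt n) ∧
      expectFinal (fun e => if C * Real.log n ^ 2 * ((n : ℝ) * Real.sqrt n) < (e : ℝ)
          then 1 else 0) (complete n) ≤ 1 / (n : ℝ) ^ 4 ∧
      expectFinal (fun e => if (e : ℝ) < (n : ℝ) * Real.sqrt n / (C * Real.log n ^ 6)
          then 1 else 0) (complete n) ≤ 2 / (n : ℝ) ^ 4 := by
  obtain ⟨C1, N1, hC1, h1⟩ := polylogBounds hp hM hP hW hLow hS0 hS
  obtain ⟨C2, N2, hC2, h2⟩ := lowerWhpMain hp hM hP hW hS0 hS
  refine ⟨max C1 C2, max N1 (max N2 2), lt_max_of_lt_left hC1, fun n hn => ?_⟩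
  obtain ⟨a, b, c⟩ := h1 n (le_trans (le_max_left _ _) hn)
  have d := h2 n (le_trans (le_trans (le_max_left _ _) (le_max_right _ _)) hn)
  have hn2 : 2 ≤ n := le_trans (le_trans (le_max_right _ _) (le_max_right _ _)) hn
  have hlog : 0 < Real.log n := Real.log_pos (by exact_mod_cast hn2)
  have hB : 0 ≤ (n : ℝ) * Real.sqrt n := by positivity
  have hlo : ∀ Ci : ℝ, 0 < Ci → Ci ≤ max C1 C2 →
      (n : ℝ) * Real.sqrt n / (max C1 C2 * Real.log n ^ 6) ≤
        (n : ℝ) * Real.sqrt n / (Ci * Real.log n ^ 6) := fun Ci h0 hle =>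
    div_le_div_of_nonneg_left hB (by positivity)
      (mul_le_mul_of_nonneg_right hle (by positivity))
  have hup : C1 * Real.log n ^ 2 * ((n : ℝ) * Real.sqrt n) ≤
      max C1 C2 * Real.log n ^ 2 * ((n : ℝ) * Real.sqrt n) :=
    mul_le_mul_of_nonneg_right (mul_le_mul_of_nonneg_right (le_max_left _ _) (by positivity)) hB
  refine ⟨le_trans (hlo C1 hC1 (le_max_left _ _)) a, le_trans b hup, ?_, ?_⟩
  · refine le_trans (expectFinal_mono_fun _ _ (fun m => ?_) _) c
    split_ifs with h h'
    · exact le_rfl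
    · exact absurd (lt_of_le_of_lt hup h) h'
    · norm_num
    · exact le_rfl
  · refine le_trans (expectFinal_mono_fun _ _ (fun m => ?_) _) d
    split_ifs with h h'
    · exact le_rfl
    · exact absurd (lt_of_lt_of_le h (hlo C2 hC2 (le_max_right _ _))) h'
    · norm_num
    · exact le_rfl

end Vale.Agent.P046
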