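import Mathlib

/-!
Random triangle removal as a recursion on finite graphs (P046): basic definitions and the
exact one step combinatorics.
-/

namespace Vale.Agent.P046

open Finset

/-- A graph is given by its set of edges, each edge being a two element vertex set. -/
abbrev Gr (n : ℕ) := Finset (Finset (Fin n))

/-- The three edges of a triangle `D` (a three element vertex set). -/
def sides {n : ℕ} (D : Finset (Fin n)) : Finset (Finset (Fin n)) := D.powersetCard 2

/-- The triangles of `G`. -/
def tri {n : ℕ} (G : Gr n) : Finset (Finset (Fin n)) :=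
  ((univ : Finset (Fin n)).powersetCard 3).filter (fun D => sides D ⊆ G)

/-- The graph left after deleting the three edges of `D`. -/
def rem {n : ℕ} (G : Gr n) (D : Finset (Fin n)) : Gr n := G \ sides D

/-- The complete graph. -/
def complete (n : ℕ) : Gr n := (univ : Finset (Fin n)).powersetCard 2

/-- The number of triangles of `G` containing the edge `g`. -/
def deg {n : ℕ} (G : Gr n) (g : Finset (Fin n)) : ℕ :=
  ((tri G).filter (fun D => g ∈ sides D)).card

/-- The number of triangles through `g` that die when `D` is removed. -/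
def lost {n : ℕ} (G : Gr n) (g D : Finset (Fin n)) : ℕ :=
  ((tri G).filter (fun E => g ∈ sides E ∧ ¬Disjoint (sides E) (sides D))).card

/-- The sum of the codegrees of the three edges of `D`. -/
def sdeg {n : ℕ} (G : Gr n) (D : Finset (Fin n)) : ℕ := ∑ g ∈ sides D, deg G g

lemma mem_tri {n : ℕ} {G : Gr n} {D : Finset (Fin n)} :
    D ∈ tri G ↔ D.card = 3 ∧ sides D ⊆ G := by
  simp [tri]

lemma mem_sides {n : ℕ} {D g : Finset (Fin n)} : g ∈ sides D ↔ g ⊆ D ∧ g.card = 2 := by
  simp [sides]

lemma card_sides {n : ℕ} {D : Finset (Fin n)} (h : D.card = 3) : (sides D).card = 3 := by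
  rw [sides, card_powersetCard, h]; decide

lemma rem_subset {n : ℕ} (G : Gr n) (D : Finset (Fin n)) : rem G D ⊆ G := sdiff_subset

lemma card_rem {n : ℕ} {G : Gr n} {D : Finset (Fin n)} (h : D ∈ tri G) :
    (rem G D).card + 3 = G.card := by
  obtain ⟨h3, hs⟩ := mem_tri.1 h
  have := card_sdiff_add_card_eq_card hs
  rw [card_sides h3] at this
  exact this

lemma card_rem_lt {n : ℕ} {G : Gr n} {D : Finset (Fin n)} (h : D ∈ tri G) :
    (rem G D).card < G.card := by
  have := card_rem h; omega

/-- The expectation of `φ` of the number of edges left by random triangle removal from `G`: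
at each step the triangle to delete is uniform among the triangles of the current graph. -/
noncomputable def expectFinal {n : ℕ} (φ : ℕ → ℝ) (G : Gr n) : ℝ :=
  if tri G = ∅ then φ G.card
  else (∑ D ∈ (tri G).attach, expectFinal φ (rem G D.1)) / ((tri G).card : ℝ)
termination_by G.card
decreasing_by exact card_rem_lt D.2

lemma expectFinal_stop {n : ℕ} (φ : ℕ → ℝ) {G : Gr n} (h : tri G = ∅) :
    expectFinal φ G = φ G.card := by
  rw [expectFinal, if_pos h]

lemma expectFinal_step {n : ℕ} (φ : ℕ → ℝ) {G : Gr n} (h : tri G ≠ ∅) :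
    expectFinal φ G = (∑ D ∈ tri G, expectFinal φ (rem G D)) / ((tri G).card : ℝ) := by
  rw [expectFinal, if_neg h]
  rw [sum_attach (tri G) (fun D => expectFinal φ (rem G D))]

lemma inter_two_eq {n : ℕ} {g E D : Finset (Fin n)} (hg : g.card = 2) (h1 : g ⊆ E) (h2 : g ⊆ D)
    (hE : E.card = 3) (hne : E ≠ D) (hD : D.card = 3) : E ∩ D = g := by
  symm
  apply eq_of_subset_of_card_le (subset_inter h1 h2)
  by_contra hc
  push Not at hc
  have h3 : E.card ≤ (E ∩ D).card := by omega
  have hEs : E ∩ D = E := eq_of_subset_of_card_le inter_subset_left h3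
  exact hne (eq_of_subset_of_card_le (inter_eq_left.1 hEs) (by omega))

/-- Two different triangles share at most one edge. -/
lemma shared_unique {n : ℕ} {E D g h : Finset (Fin n)} (hE : E.card = 3) (hD : D.card = 3)
    (hne : E ≠ D) (hg : g ∈ sides E) (hg' : g ∈ sides D) (hh : h ∈ sides E) (hh' : h ∈ sides D) :
    g = h := by
  rw [mem_sides] at hg hg' hh hh'
  rw [← inter_two_eq hg.2 hg.1 hg'.1 hE hne hD, ← inter_two_eq hh.2 hh.1 hh'.1 hE hne hD]

lemma tri_rem {n : ℕ} (G : Gr n) (D : Finset (Fin n)) :
    tri (rem G D) = (tri G).filter (fun E => Disjoint (sides E) (sides D)) := by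
  ext E
  simp only [mem_filter, mem_tri, rem, subset_sdiff]
  tauto

lemma sides_nonempty {n : ℕ} {D : Finset (Fin n)} (h : D.card = 3) : (sides D).Nonempty := by
  rw [← card_pos, card_sides h]; norm_num

/-- Surviving plus lost triangles through an edge. -/
lemma deg_rem_add_lost {n : ℕ} (G : Gr n) (g D : Finset (Fin n)) :
    deg (rem G D) g + lost G g D = deg G g := by
  simp only [deg, lost, tri_rem, filter_filter]
  rw [← card_union_of_disjoint]
  · congr 1
    ext E
    simp only [mem_union, mem_filter]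
    tauto
  · rw [disjoint_left]
    intro E h1 h2
    simp only [mem_filter] at h1 h2
    exact h2.2.2 h1.2.1

lemma deg_pos {n : ℕ} {G : Gr n} {D g : Finset (Fin n)} (hD : D ∈ tri G) (hg : g ∈ sides D) :
    1 ≤ deg G g := by
  rw [deg, Nat.one_le_iff_ne_zero, ← pos_iff_ne_zero, card_pos]
  exact ⟨D, mem_filter.2 ⟨hD, hg⟩⟩

/-- Summing over triangles and their edges. -/
lemma sum_tri_sides {n : ℕ} {β : Type*} [AddCommMonoid β] (G : Gr n) (f : Finset (Fin n) → β) :
    ∑ D ∈ tri G, ∑ g ∈ sides D, f g = ∑ g ∈ G, deg G g • f g := by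
  have h1 : ∀ D ∈ tri G, ∑ g ∈ sides D, f g = ∑ g ∈ G, if g ∈ sides D then f g else 0 := by
    intro D hD
    rw [← sum_filter]
    congr 1
    ext g
    simp only [mem_filter]
    exact ⟨fun h => ⟨(mem_tri.1 hD).2 h, h⟩, fun h => h.2⟩
  rw [sum_congr rfl h1, sum_comm]
  refine sum_congr rfl fun g _ => ?_
  rw [← sum_filter, sum_const]
  rfl

lemma sum_deg {n : ℕ} (G : Gr n) : ∑ g ∈ G, deg G g = 3 * (tri G).card := by
  have h := sum_tri_sides G (fun _ => 1)
  simp only [smul_eq_mul, mul_one, ← card_eq_sum_ones] at h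
  rw [← h, sum_congr rfl (fun D hD => card_sides (mem_tri.1 hD).1), sum_const, smul_eq_mul,
    Nat.mul_comm]

lemma sum_sdeg {n : ℕ} (G : Gr n) : ∑ D ∈ tri G, sdeg G D = ∑ g ∈ G, deg G g * deg G g := by
  simp only [sdeg]
  rw [sum_tri_sides G (fun g => deg G g)]
  simp [smul_eq_mul]

/-- Removing `D` kills itself and the other triangles through its three edges. -/
lemma card_tri_rem {n : ℕ} {G : Gr n} {D : Finset (Fin n)} (hD : D ∈ tri G) :
    (tri (rem G D)).card + sdeg G D = (tri G).card + 2 := by
  have hc := (mem_tri.1 hD).1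
  have h1 : ((tri G).filter (fun E => ¬Disjoint (sides E) (sides D))).erase D =
      (sides D).biUnion (fun g => ((tri G).filter (fun E => g ∈ sides E)).erase D) := by
    ext E
    simp only [mem_erase, mem_filter, mem_biUnion, not_disjoint_iff]
    constructor
    · rintro ⟨h, hE, g, hg1, hg2⟩
      exact ⟨g, hg2, h, hE, hg1⟩
    · rintro ⟨g, hg2, h, hE, hg1⟩
      exact ⟨h, hE, g, hg1, hg2⟩
  have h2 : ((sides D).biUnion (fun g => ((tri G).filter (fun E => g ∈ sides E)).erase D)).card
      = ∑ g ∈ sides D, (((tri G).filter (fun E => g ∈ sides E)).erase D).card := by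
    apply card_biUnion
    intro g hg g' hg' hne
    simp only [Function.onFun, disjoint_left]
    intro E h1 h2
    simp only [mem_erase, mem_filter] at h1 h2
    exact hne (shared_unique (mem_tri.1 h1.2.1).1 hc h1.1 h1.2.2 hg h2.2.2 hg')
  have h3 : ∀ g ∈ sides D, (((tri G).filter (fun E => g ∈ sides E)).erase D).card + 1 = deg G g :=
    fun g hg => card_erase_add_one (mem_filter.2 ⟨hD, hg⟩)
  have h4 : D ∈ (tri G).filter (fun E => ¬Disjoint (sides E) (sides D)) := by
    refine mem_filter.2 ⟨hD, ?_⟩
    rw [disjoint_self]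
    exact (sides_nonempty hc).ne_empty
  have h5 := card_erase_add_one h4
  have h6 := card_filter_add_card_filter_not (s := tri G)
    (fun E => Disjoint (sides E) (sides D))
  rw [tri_rem]
  have h7 : ∑ g ∈ sides D, ((((tri G).filter (fun E => g ∈ sides E)).erase D).card + 1)
      = sdeg G D := sum_congr rfl h3
  rw [sum_add_distrib, sum_const, card_sides hc, ← h2, ← h1] at h7
  simp at h7
  omega

/-- An edge outside `D` loses at most two triangles. -/
lemma lost_le_two {n : ℕ} {G : Gr n} {g D : Finset (Fin n)} (hD : D ∈ tri G)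
    (hg : g ∉ sides D) : lost G g D ≤ 2 := by
  have hc := (mem_tri.1 hD).1
  by_cases hempty : ((tri G).filter (fun E => g ∈ sides E ∧ ¬Disjoint (sides E) (sides D))) = ∅
  · rw [lost, hempty]; simp
  obtain ⟨E0, hE0⟩ := nonempty_iff_ne_empty.2 hempty
  simp only [mem_filter] at hE0
  have hg2 : g.card = 2 := (mem_sides.1 hE0.2.1).2
  -- every lost triangle is `g` plus a vertex of `D` outside `g`
  have key : ∀ E ∈ (tri G).filter (fun E => g ∈ sides E ∧ ¬Disjoint (sides E) (sides D)),
      ∃ v ∈ D, v ∉ g ∧ E = insert v g ∧ ∃ a ∈ g, a ∈ D := by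
    intro E hE
    simp only [mem_filter, not_disjoint_iff] at hE
    obtain ⟨hEt, hgE, k, hkE, hkD⟩ := hE
    rw [mem_sides] at hgE hkE hkD
    have hEc := (mem_tri.1 hEt).1
    have hkg : ¬ k ⊆ g := by
      intro hsub
      have : k = g := eq_of_subset_of_card_le hsub (by omega)
      subst this
      exact hg (mem_sides.2 ⟨hkD.1, hg2⟩)
    obtain ⟨v, hvk, hvg⟩ := not_subset.1 hkg
    have hEins : insert v g = E := by
      apply eq_of_subset_of_card_le (insert_subset (hkE.1 hvk) hgE.1)
      rw [card_insert_of_notMem hvg]; omega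
    obtain ⟨w, hwk, hwv⟩ := exists_mem_ne (by omega : 1 < k.card) v
    refine ⟨v, hkD.1 hvk, hvg, hEins.symm, w, ?_, hkD.1 hwk⟩
    have : w ∈ insert v g := by rw [hEins]; exact hkE.1 hwk
    exact (mem_insert.1 this).resolve_left hwv
  obtain ⟨v0, hv0, hv0g, hE0eq, a, ha, haD⟩ := key E0 (by simpa only [mem_filter] using hE0)
  calc lost G g D ≤ ((D \ g).image (fun v => insert v g)).card := by
        apply card_le_card
        intro E hE
        obtain ⟨v, hv, hvg, hEq, -⟩ := key E hE
        exact mem_image.2 ⟨v, mem_sdiff.2 ⟨hv, hvg⟩, hEq.symm⟩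
    _ ≤ (D \ g).card := card_image_le
    _ ≤ (D.erase a).card := card_le_card (fun v hv => by
        rw [mem_sdiff] at hv
        exact mem_erase.2 ⟨fun h => hv.2 (h ▸ ha), hv.1⟩)
    _ = 2 := by rw [card_erase_of_mem haD, hc]

/-- The total number of triangles through `g` killed by removals of triangles avoiding `g`. -/
lemma sum_lost {n : ℕ} {G : Gr n} {g : Finset (Fin n)} :
    ∑ D ∈ (tri G).filter (fun D => g ∉ sides D), lost G g D + ∑ E ∈ (tri G).filter
      (fun E => g ∈ sides E), (deg G g + 2) =
    ∑ E ∈ (tri G).filter (fun E => g ∈ sides E), sdeg G E := by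
  have swap : ∑ D ∈ (tri G).filter (fun D => g ∉ sides D), lost G g D =
      ∑ E ∈ (tri G).filter (fun E => g ∈ sides E),
        ((tri G).filter (fun D => g ∉ sides D ∧ ¬Disjoint (sides E) (sides D))).card := by
    simp only [lost, card_filter, sum_filter]
    simp only [ite_and]
    calc ∑ D ∈ tri G, (if g ∉ sides D then ∑ E ∈ tri G,
            (if g ∈ sides E then (if ¬Disjoint (sides E) (sides D) then 1 else 0) else 0) else 0)
        = ∑ D ∈ tri G, ∑ E ∈ tri G, (if g ∈ sides E then (if g ∉ sides D then
            (if ¬Disjoint (sides E) (sides D) then 1 else 0) else 0) else 0) := by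
          refine sum_congr rfl fun D _ => ?_
          by_cases hgD : g ∈ sides D <;> simp [hgD]
      _ = _ := by
          rw [sum_comm]
          refine sum_congr rfl fun E _ => ?_
          by_cases hgE : g ∈ sides E <;> simp [hgE]
  rw [swap, ← sum_add_distrib]
  refine sum_congr rfl fun E hE => ?_
  obtain ⟨hEt, hgE⟩ := mem_filter.1 hE
  have hEc := (mem_tri.1 hEt).1
  have hset : (tri G).filter (fun D => g ∉ sides D ∧ ¬Disjoint (sides E) (sides D)) =
      ((sides E).erase g).biUnion (fun f => ((tri G).filter (fun D => f ∈ sides D)).erase E) := by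
    ext D
    simp only [mem_filter, mem_biUnion, mem_erase, not_disjoint_iff]
    constructor
    · rintro ⟨hD, hgD, f, hfE, hfD⟩
      exact ⟨f, ⟨fun h => hgD (h ▸ hfD), hfE⟩, fun h => hgD (h ▸ hgE), hD, hfD⟩
    · rintro ⟨f, ⟨hfg, hfE⟩, hDE, hD, hfD⟩
      exact ⟨hD, fun h => hfg (shared_unique (mem_tri.1 hD).1 hEc hDE hfD hfE h hgE),
        f, hfE, hfD⟩
  rw [hset, card_biUnion]
  · have h3 : ∀ f ∈ (sides E).erase g,
        (((tri G).filter (fun D => f ∈ sides D)).erase E).card + 1 = deg G f :=
      fun f hf => card_erase_add_one (mem_filter.2 ⟨hEt, (mem_erase.1 hf).2⟩)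
    have h4 : ∑ f ∈ (sides E).erase g,
        ((((tri G).filter (fun D => f ∈ sides D)).erase E).card + 1) + deg G g = sdeg G E := by
      rw [sum_congr rfl h3, sdeg, sum_erase_add _ _ hgE]
    rw [sum_add_distrib, sum_const, card_erase_of_mem hgE, card_sides hEc] at h4
    simp at h4
    omega
  · intro f hf f' hf' hne
    simp only [Function.onFun, disjoint_left]
    intro D h1 h2
    simp only [mem_erase, mem_filter] at h1 h2
    exact hne (shared_unique (mem_tri.1 h1.2.1).1 hEc h1.1 h1.2.2 (mem_erase.1 hf).2 h2.2.2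
      (mem_erase.1 hf').2)

/-- The total loss over all edges when `D` is removed. -/
lemma sum_lost_edges {n : ℕ} {G : Gr n} {D : Finset (Fin n)} (hD : D ∈ tri G) :
    ∑ g ∈ rem G D, lost G g D + 6 = 2 * sdeg G D := by
  have hc := (mem_tri.1 hD).1
  have h1 : ∑ g ∈ rem G D, lost G g D =
      ∑ E ∈ (tri G).filter (fun E => ¬Disjoint (sides E) (sides D)),
        ((rem G D).filter (fun g => g ∈ sides E)).card := by
    simp only [lost, card_filter, sum_filter]
    simp only [ite_and]
    rw [sum_comm]
    refine sum_congr rfl fun E _ => ?_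
    by_cases h : Disjoint (sides E) (sides D) <;> simp [h]
  have h2 : ∀ E ∈ (tri G).filter (fun E => ¬Disjoint (sides E) (sides D)),
      ((rem G D).filter (fun g => g ∈ sides E)).card + (if E = D then 2 else 0) = 2 := by
    intro E hE
    simp only [mem_filter, not_disjoint_iff] at hE
    obtain ⟨hEt, k, hkE, hkD⟩ := hE
    split_ifs with hED
    · subst hED
      have : (rem G E).filter (fun g => g ∈ sides E) = ∅ := by
        ext g; simp [rem]
      simp [this]
    · have hEc := (mem_tri.1 hEt).1
      have : (rem G D).filter (fun g => g ∈ sides E) = (sides E).erase k := by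
        ext g
        simp only [rem, mem_filter, mem_sdiff, mem_erase]
        constructor
        · rintro ⟨⟨-, hgD⟩, hgE⟩
          exact ⟨fun h => hgD (h ▸ hkD), hgE⟩
        · rintro ⟨hgk, hgE⟩
          exact ⟨⟨(mem_tri.1 hEt).2 hgE,
            fun h => hgk (shared_unique hEc hc hED hgE h hkE hkD)⟩, hgE⟩
      rw [this, card_erase_of_mem hkE, card_sides hEc]
  have h3 := sum_congr rfl h2
  rw [sum_add_distrib, sum_const, smul_eq_mul] at h3
  have h4 : ∑ E ∈ (tri G).filter (fun E => ¬Disjoint (sides E) (sides D)),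
      (if E = D then 2 else 0) = 2 := by
    rw [sum_ite_eq']
    rw [if_pos]
    refine mem_filter.2 ⟨hD, ?_⟩
    rw [disjoint_self]
    exact (sides_nonempty hc).ne_empty
  have h6 := card_filter_add_card_filter_not (s := tri G)
    (fun E => Disjoint (sides E) (sides D))
  have h7 := card_tri_rem hD
  rw [tri_rem] at h7
  rw [h4, ← h1] at h3
  omega

end Vale.Agent.P046
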