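import Vale.Agent.P046.Interface

/-!
P046: the exponential step and the state of the process at the start.
-/

namespace Vale.Agent.P046

open Finset

variable {n : ℕ}

/-- The exponential step: small increments with nonpositive second order sum. -/
theorem sum_exp_le {ι : Type*} (s : Finset ι) (d : ι → ℝ) (l : ℝ) (h1 : ∀ i ∈ s, |d i| ≤ 1)
    (h2 : ∑ i ∈ s, d i + ∑ i ∈ s, d i ^ 2 ≤ 0) :
    ∑ i ∈ s, Real.exp (l + d i) ≤ (s.card : ℝ) * Real.exp l := by
  calc ∑ i ∈ s, Real.exp (l + d i) ≤ ∑ i ∈ s, Real.exp l * (1 + d i + d i ^ 2) := by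
        refine sum_le_sum fun i hi => ?_
        rw [Real.exp_add]
        have := (abs_le.1 (Real.abs_exp_sub_one_sub_id_le (h1 i hi))).2
        exact mul_le_mul_of_nonneg_left (by linarith) (Real.exp_pos _).le
    _ ≤ (s.card : ℝ) * Real.exp l := by
        rw [← mul_sum, sum_add_distrib, sum_add_distrib, sum_const, nsmul_eq_mul, mul_one,
          mul_comm (s.card : ℝ)]
        exact mul_le_mul_of_nonneg_left (by linarith) (Real.exp_pos _).le

theorem deg_complete {g : Finset (Fin n)} (hg : g ∈ complete n) :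
    deg (complete n) g = n - 2 := by
  obtain ⟨-, hc⟩ := mem_powersetCard.1 hg
  have h : (tri (complete n)).filter (fun D => g ∈ sides D)
      = gᶜ.image (fun v => insert v g) := by
    ext D
    simp only [mem_filter, mem_tri, mem_sides, mem_image, mem_compl]
    constructor
    · rintro ⟨⟨hD, -⟩, hgD, -⟩
      obtain ⟨v, hv, hvg⟩ := not_subset.1 fun hs : D ⊆ g => by
        have := card_le_card hs; omega
      refine ⟨v, hvg, eq_of_subset_of_card_le (insert_subset hv hgD) ?_⟩
      rw [card_insert_of_notMem hvg]; omega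
    · rintro ⟨v, hv, rfl⟩
      exact ⟨⟨by rw [card_insert_of_notMem hv, hc],
        fun e he => mem_powersetCard.2 ⟨subset_univ _, (mem_sides.1 he).2⟩⟩, subset_insert _ _, hc⟩
  rw [deg, h, card_image_of_injOn, card_compl, Fintype.card_fin, hc]
  intro v hv w hw he
  simp only [coe_compl, Set.mem_compl_iff, mem_coe] at hv hw
  simp only at he
  have hvw : v ∈ insert w g := he ▸ mem_insert_self v g
  exact (mem_insert.1 hvw).resolve_right hv

theorem startState : StartState := by
  intro n hn
  obtain ⟨hl, hbig⟩ := hn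
  have hn100 : (100000 : ℝ) ≤ n := by
    refine le_trans ?_ hbig
    nlinarith [one_le_pow₀ (by linarith : (1 : ℝ) ≤ lam n) (n := 20)]
  have hn2 : 2 ≤ n := by
    have : (2 : ℝ) ≤ n := by linarith
    exact_mod_cast this
  have he : eR (complete n) = (n : ℝ) * ((n : ℝ) - 1) / 2 := by
    simp only [eR, complete, card_powersetCard, card_univ, Fintype.card_fin]
    exact Nat.cast_choose_two ℝ n
  have he0 : 0 < eR (complete n) := by
    rw [he]; exact div_pos (mul_pos (by linarith) (by linarith)) two_pos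
  have hmu : mu (complete n) = (n : ℝ) - 2 := by
    have h := sum_deg (complete n)
    rw [sum_congr rfl fun g hg => deg_complete hg, sum_const, smul_eq_mul] at h
    have h' : (((complete n).card * (n - 2) : ℕ) : ℝ) = ((3 * (tri (complete n)).card : ℕ) : ℝ) :=
      congrArg _ h
    push_cast [Nat.cast_sub hn2] at h'
    rw [mu, div_eq_iff he0.ne']
    simp only [eR, tR]
    linarith
  have hx : ∀ g ∈ complete n, xv (complete n) g = 1 := by
    intro g hg
    rw [xv, hmu, deg_complete hg, Nat.cast_sub hn2, Nat.cast_ofNat]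
    exact div_self (by linarith)
  refine ⟨he, hmu, ?_, ?_, ?_⟩
  · rw [pp, sum_eq_zero fun g hg => by rw [hx g hg]; simp [psi], mul_zero]
  · have hr : ww (complete n) - w0 n
        = Real.log (((n : ℝ) - 2) * n / ((n : ℝ) - 1) ^ 2) := by
      rw [ww, w0, hmu, he, ← Real.log_div]
      · congr 1
        have : (n : ℝ) - 1 ≠ 0 := by linarith
        field_simp
        ring
      · exact div_ne_zero (by linarith) (pow_ne_zero 2 (by rw [← he]; exact he0.ne'))
      · exact div_ne_zero (by norm_num) (pow_ne_zero 3 (by linarith))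
    rw [hr]
    have hd : (0 : ℝ) < ((n : ℝ) - 1) ^ 2 := pow_pos (by linarith) 2
    have hlo : (999 : ℝ) / 1000 ≤ ((n : ℝ) - 2) * n / ((n : ℝ) - 1) ^ 2 := by
      rw [le_div_iff₀ hd]; nlinarith
    have hhi : ((n : ℝ) - 2) * n / ((n : ℝ) - 1) ^ 2 ≤ 1 := by
      rw [div_le_one hd]; nlinarith
    have h0 : (0 : ℝ) < ((n : ℝ) - 2) * n / ((n : ℝ) - 1) ^ 2 := by linarith
    have h1 := Real.one_sub_inv_le_log_of_pos h0
    have h2 : (((n : ℝ) - 2) * n / ((n : ℝ) - 1) ^ 2)⁻¹ ≤ 1000 / 999 := by
      rw [inv_le_comm₀ h0 (by norm_num)]; linarith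
    rw [abs_of_nonpos (Real.log_nonpos h0.le hhi)]
    linarith
  · have hxe : ∀ g ∈ complete n,
        Real.exp ((deg (complete n) g : ℝ) / (4 * mu (complete n))) ≤ 2 := by
      intro g hg
      have e : (deg (complete n) g : ℝ) / (4 * mu (complete n)) = 1 / 4 := by
        rw [hmu, deg_complete hg, Nat.cast_sub hn2, Nat.cast_ofNat]
        have : (n : ℝ) - 2 ≠ 0 := by linarith
        field_simp
      rw [e]
      have := (abs_le.1 (Real.abs_exp_sub_one_sub_id_le (x := 1 / 4) (by norm_num))).2
      linarith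
    calc mm (complete n) ≤ ∑ _g ∈ complete n, (2 : ℝ) := sum_le_sum hxe
      _ = eR (complete n) * 2 := by rw [sum_const, nsmul_eq_mul]; rfl
      _ ≤ (n : ℝ) ^ 2 := by rw [he]; nlinarith

end Vale.Agent.P046
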