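import Vale.Agent.P046.Defs

/-!
P046: the quantities used by the potentials, the good states, and the statements (as propositions)
of the parts of the proof.
-/

namespace Vale.Agent.P046

open Finset

noncomputable def eR {n : ℕ} (G : Gr n) : ℝ := (G.card : ℝ)

noncomputable def tR {n : ℕ} (G : Gr n) : ℝ := ((tri G).card : ℝ)

/-- The mean codegree of an edge. -/
noncomputable def mu {n : ℕ} (G : Gr n) : ℝ := 3 * tR G / eR G

/-- The normalised codegree. -/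
noncomputable def xv {n : ℕ} (G : Gr n) (g : Finset (Fin n)) : ℝ := (deg G g : ℝ) / mu G

/-- The dispersion weight, as a function of the normalised codegree. -/
noncomputable def psi (x : ℝ) : ℝ :=
  (x - 1) ^ 2 * (4 * (x - 1) ^ 2 + 2 * (x - 1) + 1) / (15 * (x - 1) ^ 2 + 3 * (x - 1) + 1)

/-- The derivative of `psi`. -/
noncomputable def phi (x : ℝ) : ℝ :=
  ((16 * (x - 1) ^ 3 + 6 * (x - 1) ^ 2 + 2 * (x - 1)) * (15 * (x - 1) ^ 2 + 3 * (x - 1) + 1)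
    - (4 * (x - 1) ^ 4 + 2 * (x - 1) ^ 3 + (x - 1) ^ 2) * (30 * (x - 1) + 3))
    / (15 * (x - 1) ^ 2 + 3 * (x - 1) + 1) ^ 2

/-- The per triangle form of the drift of the dispersion potential. -/
noncomputable def qq (a b c : ℝ) : ℝ :=
  (psi a + psi a / a + phi a * (a + b + c - 2 - a)) +
  (psi b + psi b / b + phi b * (a + b + c - 2 - b)) +
  (psi c + psi c / c + phi c * (a + b + c - 2 - c))

/-- The dispersion potential. -/
noncomputable def pp {n : ℕ} (G : Gr n) : ℝ :=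
  mu G / eR G * ∑ g ∈ G, psi (xv G g)

/-- The logarithm of the mean codegree over the squared edge count. -/
noncomputable def ww {n : ℕ} (G : Gr n) : ℝ := Real.log (mu G / eR G ^ 2)

noncomputable def lam (n : ℕ) : ℝ := Real.log (n : ℝ)

noncomputable def w0 (n : ℕ) : ℝ := Real.log (4 / (n : ℝ) ^ 3)

noncomputable def kk (n : ℕ) : ℝ := 32 * lam n

noncomputable def bb (n : ℕ) : ℝ := 3 * 10 ^ 12 * lam n ^ 3

noncomputable def ll (n : ℕ) : ℝ := 10 ^ 17 * lam n ^ 4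

/-- `n` is large enough for all estimates. -/
def Big (n : ℕ) : Prop := 10 ≤ lam n ∧ 10 ^ 60 * lam n ^ 20 ≤ (n : ℝ)

/-- The states in which all potentials are still controlled. -/
def Good {n : ℕ} (G : Gr n) : Prop :=
  ll n ≤ mu G ∧ (∀ g ∈ G, (deg G g : ℝ) ≤ kk n * mu G) ∧ pp G ≤ bb n ∧ |ww G - w0 n| ≤ 1

/-- The exponential codegree potential. -/
noncomputable def mm {n : ℕ} (G : Gr n) : ℝ :=
  ∑ g ∈ G, Real.exp ((deg G g : ℝ) / (4 * mu G))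

/-- The logarithm of the dispersion exponential potential. -/
noncomputable def lp {n : ℕ} (G : Gr n) : ℝ :=
  pp G / lam n ^ 2 + 10 ^ 12 * Real.log (eR G)

/-- The logarithms of the two exponential potentials for `ww`; `σ` is `1` or `-1`. -/
noncomputable def lw (σ : ℝ) {n : ℕ} (G : Gr n) : ℝ :=
  8 * lam n * (σ * (ww G - w0 n) + Real.log (eR G) / (8 * lam n))

/-! The statements of the separate parts. -/

def CertQ : Prop := ∀ a b c : ℝ, 0 < a → 0 < b → 0 < c → 0 ≤ qq a b c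

def PsiFacts : Prop :=
  (∀ x : ℝ, (x - 1) ^ 2 / 5 ≤ psi x) ∧
  (∀ x : ℝ, psi x ≤ 11 / 10 * (x - 1) ^ 2) ∧
  (∀ x : ℝ, |phi x| ≤ 10 * |x - 1|) ∧
  (∀ x : ℝ, |x * phi x - 2 * (x - 1)| ≤ 10 * (x - 1) ^ 2) ∧
  (∀ x y : ℝ, |psi y - psi x - phi x * (y - x)| ≤ 10 * (y - x) ^ 2)

def MDrift : Prop := ∀ n : ℕ, ∀ G : Gr n, Big n → Good G →
  ∑ D ∈ tri G, mm (rem G D) ≤ tR G * mm G

def PDrift : Prop := ∀ n : ℕ, ∀ G : Gr n, Big n → Good G →
  ∑ D ∈ tri G, Real.exp (lp (rem G D)) ≤ tR G * Real.exp (lp G)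

def WDrift : Prop := ∀ n : ℕ, ∀ G : Gr n, Big n → Good G → ∀ σ : ℝ, (σ = 1 ∨ σ = -1) →
  ∑ D ∈ tri G, Real.exp (lw σ (rem G D)) ≤ tR G * Real.exp (lw σ G)

def LowerBounded : Prop := ∀ n : ℕ, ∀ G : Gr n, ∀ Y : ℕ, 1 ≤ Y → (∀ g ∈ G, deg G g ≤ Y) →
  ((G.filter (fun g => 2 ≤ deg G g)).card : ℝ) ≤
    16 * (Y : ℝ) * Real.sqrt Y * expectFinal (fun e => (e : ℝ)) G

def StartState : Prop := ∀ n : ℕ, Big n →
  eR (complete n) = (n : ℝ) * ((n : ℝ) - 1) / 2 ∧ mu (complete n) = (n : ℝ) - 2 ∧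
  pp (complete n) = 0 ∧ |ww (complete n) - w0 n| ≤ 1 / 100 ∧
  mm (complete n) ≤ (n : ℝ) ^ 2

/-- Facts valid at every good state and for every triangle `D` of it. -/
def StepFacts : Prop := ∀ n : ℕ, ∀ G : Gr n, Big n → Good G →
  (n : ℝ) * Real.sqrt n ≤ eR G ∧ mu G ^ 2 ≤ 16 * eR G ∧ 0 < tR G ∧
  (∀ D ∈ tri G, 3 ≤ (sdeg G D : ℝ) ∧ (sdeg G D : ℝ) ≤ 3 * kk n * mu G ∧
    0 ≤ ((sdeg G D : ℝ) - 2) / tR G ∧ ((sdeg G D : ℝ) - 2) / tR G ≤ 9 * kk n / eR G ∧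
    eR (rem G D) = eR G - 3 ∧ tR (rem G D) = tR G * (1 - ((sdeg G D : ℝ) - 2) / tR G) ∧
    mu (rem G D) = mu G * (1 - ((sdeg G D : ℝ) - 2) / tR G) / (1 - 3 / eR G) ∧
    mu G / 2 ≤ mu (rem G D))

end Vale.Agent.P046
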