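import Vale.Agent.P046.Interface

/-!
P046: a lower bound for the expected number of edges left, by a submartingale which rewards
edges of small codegree and pays off when an edge loses its last triangle.
-/

namespace Vale.Agent.P046

open Finset

namespace Lower

/-- All triangles through `g` consist of edges of codegree one. -/
def Iso {n : ℕ} (G : Gr n) (g : Finset (Fin n)) : Prop :=
  ∀ E ∈ tri G, g ∈ sides E → ∀ f ∈ sides E, deg G f = 1

/-- The triangles through `g`. -/
def through {n : ℕ} (G : Gr n) (g : Finset (Fin n)) : Finset (Finset (Fin n)) :=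
  (tri G).filter (fun E => g ∈ sides E)

lemma card_through {n : ℕ} (G : Gr n) (g : Finset (Fin n)) : (through G g).card = deg G g := rfl

lemma mem_through {n : ℕ} {G : Gr n} {g E : Finset (Fin n)} :
    E ∈ through G g ↔ E ∈ tri G ∧ g ∈ sides E := mem_filter

/-- The weight of an edge with codegree `y ≥ 2`, zero otherwise. -/
noncomputable def w2 (y : ℕ) : ℝ := if 2 ≤ y then 1 / Real.sqrt ((y : ℝ) - 1) else 0

/-- Its slope. -/
noncomputable def c2 (y : ℕ) : ℝ :=
  if 2 ≤ y then 1 / (2 * (((y : ℝ) - 1) * Real.sqrt ((y : ℝ) - 1))) else 0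

open Classical in
/-- Indicator of an edge of codegree one whose triangle is not isolated. -/
noncomputable def one1 {n : ℕ} (G : Gr n) (g : Finset (Fin n)) : ℝ :=
  if deg G g = 1 ∧ ¬Iso G g then 1 else 0

open Classical in
/-- Indicator that removing `D` makes the triangle at `g` isolated. -/
noncomputable def newIso {n : ℕ} (G : Gr n) (D g : Finset (Fin n)) : ℝ :=
  if deg (rem G D) g = 1 ∧ Iso (rem G D) g ∧ ¬(deg G g = 1 ∧ Iso G g) then 1 else 0

/-- The weight of an edge. -/
noncomputable def wt {n : ℕ} (Y : ℕ) (G : Gr n) (g : Finset (Fin n)) : ℝ :=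
  if deg G g = 0 then 16 * (Y : ℝ) else w2 (deg G g) + 3 / 2 * one1 G g

/-- The submartingale. -/
noncomputable def hh {n : ℕ} (Y : ℕ) (G : Gr n) : ℝ := ∑ g ∈ G, wt Y G g

lemma w2_nonneg (y : ℕ) : 0 ≤ w2 y := by
  unfold w2; split_ifs
  · positivity
  · exact le_rfl

lemma one1_nonneg {n : ℕ} (G : Gr n) (g : Finset (Fin n)) : 0 ≤ one1 G g := by
  unfold one1; split_ifs <;> norm_num

lemma newIso_nonneg {n : ℕ} (G : Gr n) (D g : Finset (Fin n)) : 0 ≤ newIso G D g := by
  unfold newIso; split_ifs <;> norm_num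

lemma wt_nonneg {n : ℕ} (Y : ℕ) (G : Gr n) (g : Finset (Fin n)) : 0 ≤ wt Y G g := by
  have := w2_nonneg (deg G g)
  have := one1_nonneg G g
  unfold wt; split_ifs <;> positivity

lemma deg_rem_le {n : ℕ} (G : Gr n) (D g : Finset (Fin n)) : deg (rem G D) g ≤ deg G g := by
  have := deg_rem_add_lost G g D
  omega

lemma sqrt_step {a d : ℝ} (hd : 0 ≤ d) (h : 1 ≤ a - d) :
    1 / Real.sqrt a + d * (1 / (2 * (a * Real.sqrt a))) ≤ 1 / Real.sqrt (a - d) := by
  obtain ⟨s, hs, hsa⟩ : ∃ s, 1 ≤ s ∧ Real.sqrt (a - d) = s :=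
    ⟨_, Real.one_le_sqrt.2 h, rfl⟩
  obtain ⟨t, ht, hta⟩ : ∃ t, 1 ≤ t ∧ Real.sqrt a = t :=
    ⟨_, Real.one_le_sqrt.2 (by linarith), rfl⟩
  have h1 : s ^ 2 = a - d := by rw [← hsa]; exact Real.sq_sqrt (by linarith)
  have h2 : t ^ 2 = a := by rw [← hta]; exact Real.sq_sqrt (by linarith)
  have hst : s ≤ t := by rw [← hsa, ← hta]; exact Real.sqrt_le_sqrt (by linarith)
  rw [hsa, hta, ← h2, show d = t ^ 2 - s ^ 2 by linarith]
  have hs0 : 0 < s := by linarith
  have ht0 : 0 < t := by linarith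
  rw [div_add' _ _ _ ht0.ne', div_le_div_iff₀ ht0 hs0]
  have e : (1 + (t ^ 2 - s ^ 2) * (1 / (2 * (t ^ 2 * t))) * t) * s
      = (2 * t ^ 2 + (t ^ 2 - s ^ 2)) * s / (2 * t ^ 2) := by
    field_simp
  rw [e, div_le_iff₀ (by positivity)]
  nlinarith [mul_nonneg (mul_nonneg (sub_nonneg.2 hst) (sub_nonneg.2 hst)) (by linarith : (0:ℝ) ≤ s + 2 * t)]

/-- The change of the weight of an edge outside the removed triangle. -/
lemma step_ge {n : ℕ} {Y : ℕ} (hY : 1 ≤ Y) {G : Gr n} {D g : Finset (Fin n)}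
    (hD : D ∈ tri G) (hg : g ∉ sides D) :
    wt Y G g + (lost G g D : ℝ) * c2 (deg G g)
      + (if 1 ≤ lost G g D then (16 * (Y : ℝ) - 3 / 2) * one1 G g else 0)
      - 3 / 2 * newIso G D g ≤ wt Y (rem G D) g := by
  have hadd := deg_rem_add_lost G g D
  have hl := lost_le_two hD hg
  have hY' : (1 : ℝ) ≤ Y := by exact_mod_cast hY
  rcases Nat.lt_or_ge (deg G g) 2 with hy | hy
  · rcases Nat.eq_zero_or_pos (deg G g) with h0 | h1
    · have h0' : deg (rem G D) g = 0 := by omega
      have hl0 : lost G g D = 0 := by omega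
      have := newIso_nonneg G D g
      simp [wt, h0, h0', hl0, c2]
      linarith
    · have h1' : deg G g = 1 := by omega
      by_cases hiso : Iso G g
      · have := newIso_nonneg G D g
        have := wt_nonneg Y (rem G D) g
        have e1 : wt Y G g = 0 := by simp [wt, one1, w2, h1', hiso]
        have e2 : c2 (deg G g) = 0 := by simp [c2, h1']
        have e3 : one1 G g = 0 := by simp [one1, hiso]
        rw [e1, e2, e3, mul_zero, mul_zero, ite_self]
        linarith
      · rcases Nat.eq_zero_or_pos (lost G g D) with hl0 | hl1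
        · have hd' : deg (rem G D) g = 1 := by omega
          by_cases hiso' : Iso (rem G D) g
          · simp [wt, one1, w2, c2, newIso, h1', hiso, hl0, hd', hiso']
          · simp [wt, one1, w2, c2, newIso, h1', hiso, hl0, hd', hiso']
        · have hl1' : lost G g D = 1 := by omega
          have hd' : deg (rem G D) g = 0 := by omega
          simp [wt, one1, w2, c2, newIso, h1', hiso, hl1', hd']
  · have hne : deg G g ≠ 0 := by omega
    have hne1 : deg G g ≠ 1 := by omega
    have hwt : wt Y G g = 1 / Real.sqrt ((deg G g : ℝ) - 1) := by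
      simp [wt, one1, w2, hne, hne1, hy]
    have hc2 : c2 (deg G g)
        = 1 / (2 * (((deg G g : ℝ) - 1) * Real.sqrt ((deg G g : ℝ) - 1))) := by
      simp [c2, hy]
    have hone : one1 G g = 0 := by simp [one1, hne1]
    rw [hwt, hc2, hone, mul_zero, ite_self, add_zero]
    have ha : ((deg G g : ℝ) - 1) = (deg (rem G D) g : ℝ) + lost G g D - 1 := by
      rw [← hadd]; push_cast; ring
    rcases Nat.lt_or_ge (deg (rem G D) g) 2 with hy' | hy'
    · rcases Nat.eq_zero_or_pos (deg (rem G D) g) with h0 | h1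
      · have hd2 : lost G g D = 2 := by omega
        have := newIso_nonneg G D g
        rw [ha, h0, hd2]
        norm_num [wt, h0]
        linarith
      · have h1' : deg (rem G D) g = 1 := by omega
        rw [ha, h1']
        obtain ⟨d, hd⟩ : ∃ d, lost G g D = d := ⟨_, rfl⟩
        have hd1 : 1 ≤ d := by omega
        rw [hd]
        have hd0 : (1 : ℝ) ≤ d := by exact_mod_cast hd1
        have key : 1 / Real.sqrt (d : ℝ) + (d : ℝ) * (1 / (2 * ((d : ℝ) * Real.sqrt d))) ≤ 3 / 2 := by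
          have hs : 1 ≤ Real.sqrt (d : ℝ) := Real.one_le_sqrt.2 hd0
          have : (d : ℝ) * (1 / (2 * ((d : ℝ) * Real.sqrt d))) = 1 / (2 * Real.sqrt d) := by
            field_simp
          rw [this]
          have h1 : 1 / Real.sqrt (d : ℝ) ≤ 1 := by rw [div_le_one (by linarith)]; exact hs
          have h2 : 1 / (2 * Real.sqrt (d : ℝ)) = 1 / Real.sqrt (d : ℝ) / 2 := by ring
          linarith
        rw [show ((1 : ℕ) : ℝ) + (d : ℝ) - 1 = (d : ℝ) by push_cast; ring]
        by_cases hiso' : Iso (rem G D) g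
        · simp [wt, one1, w2, newIso, h1', hiso', hne1]
          simp at key
          linarith
        · simp [wt, one1, w2, newIso, h1', hiso']
          simp at key
          linarith
    · have hne' : deg (rem G D) g ≠ 0 := by omega
      have hne1' : deg (rem G D) g ≠ 1 := by omega
      have hn : newIso G D g = 0 := by simp [newIso, hne1']
      have hw : wt Y (rem G D) g = 1 / Real.sqrt ((deg (rem G D) g : ℝ) - 1) := by
        simp [wt, one1, w2, hne', hne1', hy']
      have h2 : (2 : ℝ) ≤ deg (rem G D) g := by exact_mod_cast hy'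
      rw [hn, hw, ha, mul_zero, sub_zero]
      have := sqrt_step (a := (deg (rem G D) g : ℝ) + lost G g D - 1) (d := lost G g D)
        (Nat.cast_nonneg _) (by linarith)
      rwa [show (deg (rem G D) g : ℝ) + lost G g D - 1 - lost G g D
        = (deg (rem G D) g : ℝ) - 1 by ring] at this

lemma pair_ge {a b : ℝ} (ha : 0 < a) (hb : 0 < b) :
    1 / Real.sqrt a + 1 / Real.sqrt b
      ≤ b * (1 / (a * Real.sqrt a)) + a * (1 / (b * Real.sqrt b)) := by
  obtain ⟨s, hs, hsa⟩ : ∃ s, 0 < s ∧ Real.sqrt a = s := ⟨_, Real.sqrt_pos.2 ha, rfl⟩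
  obtain ⟨t, ht, htb⟩ : ∃ t, 0 < t ∧ Real.sqrt b = t := ⟨_, Real.sqrt_pos.2 hb, rfl⟩
  have h1 : s ^ 2 = a := by rw [← hsa]; exact Real.sq_sqrt ha.le
  have h2 : t ^ 2 = b := by rw [← htb]; exact Real.sq_sqrt hb.le
  rw [hsa, htb, ← h1, ← h2]
  have e : t ^ 2 * (1 / (s ^ 2 * s)) + s ^ 2 * (1 / (t ^ 2 * t)) - (1 / s + 1 / t)
      = (s - t) ^ 2 * (s + t) * (s ^ 2 + s * t + t ^ 2) / (s ^ 3 * t ^ 3) := by
    field_simp
    ring
  have : 0 ≤ (s - t) ^ 2 * (s + t) * (s ^ 2 + s * t + t ^ 2) / (s ^ 3 * t ^ 3) := by positivity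
  linarith

lemma c2_eq {y : ℕ} (h : 2 ≤ y) :
    c2 y = 1 / (((y : ℝ) - 1) * Real.sqrt ((y : ℝ) - 1)) / 2 := by
  simp only [c2, if_pos h]; rw [div_div, mul_comm]

lemma w2_eq {y : ℕ} (h : 2 ≤ y) : w2 y = 1 / Real.sqrt ((y : ℝ) - 1) := by simp [w2, h]

lemma w2_le_one (y : ℕ) : w2 y ≤ 1 := by
  unfold w2; split_ifs with h
  · have : (2 : ℝ) ≤ y := by exact_mod_cast h
    have hs := Real.one_le_sqrt.2 (show (1 : ℝ) ≤ (y : ℝ) - 1 by linarith)
    rw [div_le_one (by linarith)]; exact hs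
  · exact zero_le_one

lemma two_pos_ge {u v : ℕ} (hu : 2 ≤ u) (hv : 2 ≤ v) :
    w2 u + w2 v ≤ c2 u * ((v : ℝ) - 1) + c2 v * ((u : ℝ) - 1) + 1 := by
  have h1 : (2 : ℝ) ≤ u := by exact_mod_cast hu
  have h2 : (2 : ℝ) ≤ v := by exact_mod_cast hv
  have := pair_ge (show (0 : ℝ) < (u : ℝ) - 1 by linarith) (show (0 : ℝ) < (v : ℝ) - 1 by linarith)
  have := w2_le_one u
  have := w2_le_one v
  rw [c2_eq hu, c2_eq hv, w2_eq hu, w2_eq hv] at *
  linarith

/-- The three edges of one triangle. -/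
lemma triple_ge {u v w : ℕ} (hu : 1 ≤ u) (hv : 1 ≤ v) (hw : 1 ≤ w) :
    w2 u + w2 v + w2 w
      ≤ c2 u * ((v : ℝ) + w - 2) + c2 v * ((u : ℝ) + w - 2) + c2 w * ((u : ℝ) + v - 2)
        + (if (u = 1 ∨ v = 1 ∨ w = 1) ∧ (2 ≤ u ∨ 2 ≤ v ∨ 2 ≤ w) then 1 else 0) := by
  rcases Nat.lt_or_ge u 2 with a | a <;> rcases Nat.lt_or_ge v 2 with b | b <;>
    rcases Nat.lt_or_ge w 2 with c | c
  · obtain rfl : u = 1 := by omega
    obtain rfl : v = 1 := by omega
    obtain rfl : w = 1 := by omega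
    norm_num [w2, c2]
  · obtain rfl : u = 1 := by omega
    obtain rfl : v = 1 := by omega
    rw [if_pos ⟨Or.inl rfl, by omega⟩]
    have := w2_le_one w
    norm_num [w2, c2] at *
    linarith
  · obtain rfl : u = 1 := by omega
    obtain rfl : w = 1 := by omega
    rw [if_pos ⟨Or.inl rfl, by omega⟩]
    have := w2_le_one v
    norm_num [w2, c2] at *
    linarith
  · obtain rfl : u = 1 := by omega
    rw [if_pos ⟨Or.inl rfl, by omega⟩]
    have := two_pos_ge b c
    rw [show w2 1 = 0 by simp [w2], show c2 1 = 0 by simp [c2]]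
    push_cast
    linarith
  · obtain rfl : v = 1 := by omega
    obtain rfl : w = 1 := by omega
    rw [if_pos ⟨Or.inr (Or.inl rfl), by omega⟩]
    have := w2_le_one u
    norm_num [w2, c2] at *
    linarith
  · obtain rfl : v = 1 := by omega
    rw [if_pos ⟨Or.inr (Or.inl rfl), by omega⟩]
    have := two_pos_ge a c
    rw [show w2 1 = 0 by simp [w2], show c2 1 = 0 by simp [c2]]
    push_cast
    linarith
  · obtain rfl : w = 1 := by omega
    rw [if_pos ⟨Or.inr (Or.inr rfl), by omega⟩]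
    have := two_pos_ge a b
    rw [show w2 1 = 0 by simp [w2], show c2 1 = 0 by simp [c2]]
    push_cast
    linarith
  · rw [if_neg (by omega)]
    have h1 : (2 : ℝ) ≤ u := by exact_mod_cast a
    have h2 : (2 : ℝ) ≤ v := by exact_mod_cast b
    have h3 : (2 : ℝ) ≤ w := by exact_mod_cast c
    have := pair_ge (show (0 : ℝ) < (u : ℝ) - 1 by linarith) (show (0 : ℝ) < (v : ℝ) - 1 by linarith)
    have := pair_ge (show (0 : ℝ) < (u : ℝ) - 1 by linarith) (show (0 : ℝ) < (w : ℝ) - 1 by linarith)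
    have := pair_ge (show (0 : ℝ) < (v : ℝ) - 1 by linarith) (show (0 : ℝ) < (w : ℝ) - 1 by linarith)
    rw [c2_eq a, c2_eq b, c2_eq c, w2_eq a, w2_eq b, w2_eq c]
    linarith

/-- One triangle: the slopes pay for the covering up to one unit for mixed triangles. -/
lemma triangle_ge {n : ℕ} {G : Gr n} {E : Finset (Fin n)} (hE : E ∈ tri G) :
    ∑ g ∈ sides E, w2 (deg G g)
      ≤ ∑ g ∈ sides E, c2 (deg G g) * ((sdeg G E : ℝ) - deg G g - 2)
        + ∑ g ∈ sides E, one1 G g := by
  obtain ⟨p, q, r, hpq, hpr, hqr, hs⟩ := card_eq_three.1 (card_sides (mem_tri.1 hE).1)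
  have hp : p ∈ sides E := by rw [hs]; simp
  have hq : q ∈ sides E := by rw [hs]; simp
  have hr : r ∈ sides E := by rw [hs]; simp
  have e3 : ∀ f : Finset (Fin n) → ℝ, ∑ g ∈ sides E, f g = f p + f q + f r := by
    intro f
    rw [hs, sum_insert (by simp [hpq, hpr]), sum_pair hqr]
    ring
  have hsd : (sdeg G E : ℝ) = deg G p + deg G q + deg G r := by
    rw [sdeg, Nat.cast_sum]; exact e3 _
  have key := triple_ge (deg_pos hE hp) (deg_pos hE hq) (deg_pos hE hr)
  have mixed : (if (deg G p = 1 ∨ deg G q = 1 ∨ deg G r = 1) ∧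
      (2 ≤ deg G p ∨ 2 ≤ deg G q ∨ 2 ≤ deg G r) then (1 : ℝ) else 0)
      ≤ ∑ g ∈ sides E, one1 G g := by
    split_ifs with hmix
    · obtain ⟨x, hx, hx1⟩ : ∃ x ∈ sides E, deg G x = 1 := by
        rcases hmix.1 with h | h | h
        exacts [⟨p, hp, h⟩, ⟨q, hq, h⟩, ⟨r, hr, h⟩]
      obtain ⟨f, hf, hf2⟩ : ∃ f ∈ sides E, 2 ≤ deg G f := by
        rcases hmix.2 with h | h | h
        exacts [⟨p, hp, h⟩, ⟨q, hq, h⟩, ⟨r, hr, h⟩]
      have : one1 G x = 1 := by
        rw [one1, if_pos ⟨hx1, fun h => by have := h E hE hx f hf; omega⟩]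
      calc (1 : ℝ) = one1 G x := this.symm
        _ ≤ _ := single_le_sum (fun g _ => one1_nonneg G g) hx
    · exact sum_nonneg fun g _ => one1_nonneg G g
  rw [e3, e3, hsd]
  linarith

lemma swap_sides {n : ℕ} (G : Gr n) (f : Finset (Fin n) → Finset (Fin n) → ℝ) :
    ∑ g ∈ G, ∑ E ∈ through G g, f g E = ∑ E ∈ tri G, ∑ g ∈ sides E, f g E := by
  apply sum_comm'
  intro g E
  rw [mem_through]
  exact ⟨fun h => ⟨h.2.2, h.2.1⟩, fun h => ⟨(mem_tri.1 h.2).2 h.1, h.2, h.1⟩⟩

lemma swap_avoid {n : ℕ} (G : Gr n) (f : Finset (Fin n) → Finset (Fin n) → ℝ) :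
    ∑ D ∈ tri G, ∑ g ∈ rem G D, f D g
      = ∑ g ∈ G, ∑ D ∈ (tri G).filter (fun D => g ∉ sides D), f D g := by
  apply sum_comm'
  intro D g
  simp only [rem, mem_sdiff, mem_filter]
  tauto

lemma sum_lost_real {n : ℕ} (G : Gr n) (g : Finset (Fin n)) :
    ∑ D ∈ (tri G).filter (fun D => g ∉ sides D), (lost G g D : ℝ)
      = ∑ E ∈ through G g, ((sdeg G E : ℝ) - deg G g - 2) := by
  have h := congrArg (Nat.cast : ℕ → ℝ) (sum_lost (G := G) (g := g))
  push_cast at h
  rw [sum_sub_distrib, sum_sub_distrib, through]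
  rw [sum_add_distrib] at h
  linarith

/-- A non isolated edge of codegree one can lose its triangle. -/
lemma exists_killer {n : ℕ} {G : Gr n} {g : Finset (Fin n)} (h1 : deg G g = 1)
    (h2 : ¬Iso G g) :
    ∃ D ∈ (tri G).filter (fun D => g ∉ sides D), 1 ≤ lost G g D := by
  simp only [Iso, not_forall] at h2
  obtain ⟨E, hE, hgE, f, hf, hf1⟩ := h2
  have hf2 : 1 < (through G f).card := by
    have := deg_pos hE hf; rw [card_through]; omega
  obtain ⟨D, hD, hne⟩ := exists_mem_ne hf2 E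
  rw [mem_through] at hD
  refine ⟨D, mem_filter.2 ⟨hD.1, fun hgD => ?_⟩, ?_⟩
  · exact hne ((card_le_one.1 (by rw [card_through]; omega))
      D (mem_through.2 ⟨hD.1, hgD⟩) E (mem_through.2 ⟨hE, hgE⟩))
  · exact card_pos.2 ⟨E, mem_filter.2 ⟨hE, hgE, not_disjoint_iff.2 ⟨f, hf, hD.2⟩⟩⟩

/-- Two triangles without common edge: one edge of the first avoids the second. -/
lemma exists_free_edge {n : ℕ} {E D : Finset (Fin n)} (hE : E.card = 3)
    (h : Disjoint (sides E) (sides D)) : ∃ k ∈ sides E, Disjoint k D := by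
  have hi : (E ∩ D).card ≤ 1 := by
    by_contra hc
    push Not at hc
    obtain ⟨k, hk, hk2⟩ := exists_subset_card_eq (s := E ∩ D) (n := 2) (by omega)
    exact disjoint_left.1 h (mem_sides.2 ⟨hk.trans inter_subset_left, hk2⟩)
      (mem_sides.2 ⟨hk.trans inter_subset_right, hk2⟩)
  have := card_inter_add_card_sdiff E D
  obtain ⟨k, hk, hk2⟩ := exists_subset_card_eq (s := E \ D) (n := 2) (by omega)
  refine ⟨k, mem_sides.2 ⟨hk.trans sdiff_subset, hk2⟩, ?_⟩
  rw [disjoint_left]
  exact fun x hx => (mem_sdiff.1 (hk hx)).2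

/-- An edge without common vertex with `D` loses nothing. -/
lemma lost_free {n : ℕ} {G : Gr n} {k D : Finset (Fin n)} (hk : k.card = 2)
    (h : Disjoint k D) : lost G k D = 0 := by
  rw [lost, card_eq_zero, filter_eq_empty_iff]
  rintro E hE ⟨hkE, hnd⟩
  obtain ⟨x, hxE, hxD⟩ := not_disjoint_iff.1 hnd
  rw [mem_sides] at hkE hxE hxD
  have hd : Disjoint k x := h.mono_right hxD.1
  have := card_le_card (union_subset hkE.1 hxE.1)
  rw [card_union_of_disjoint hd, (mem_tri.1 hE).1, hk, hxE.2] at this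
  omega

/-- The triangles with edges of codegree one and of larger codegree. -/
def mixed {n : ℕ} (G : Gr n) : Finset (Finset (Fin n)) :=
  (tri G).filter (fun E => (∃ k ∈ sides E, deg G k = 1) ∧ ∃ f ∈ sides E, 2 ≤ deg G f)

lemma card_mixed_le {n : ℕ} (G : Gr n) :
    ((mixed G).card : ℝ) ≤ ∑ g ∈ G, one1 G g := by
  have h1 : ∑ g ∈ G, one1 G g = ∑ E ∈ tri G, ∑ g ∈ sides E, one1 G g := by
    rw [sum_tri_sides]
    refine sum_congr rfl fun g _ => ?_
    unfold one1
    split_ifs with h <;> simp [h]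
  rw [h1, card_eq_sum_ones, Nat.cast_sum, mixed, sum_filter]
  refine sum_le_sum fun E hE => ?_
  split_ifs with h
  · obtain ⟨⟨k, hk, hk1⟩, f, hf, hf2⟩ := h
    have : one1 G k = 1 := by
      rw [one1, if_pos ⟨hk1, fun h => by have := h E hE hk f hf; omega⟩]
    rw [Nat.cast_one, ← this]
    exact single_le_sum (fun g _ => one1_nonneg G g) hk
  · exact sum_nonneg fun g _ => one1_nonneg G g

/-- The triangles which can isolate `E`. -/
def makers {n : ℕ} (G : Gr n) (E : Finset (Fin n)) : Finset (Finset (Fin n)) :=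
  (tri G).filter (fun D => Disjoint (sides E) (sides D) ∧ ∀ f ∈ sides E, deg (rem G D) f = 1)

lemma card_makers_le {n : ℕ} {G : Gr n} {E : Finset (Fin n)} {Y : ℕ} (hE : E ∈ mixed G)
    (hY : ∀ g ∈ G, deg G g ≤ Y) : (makers G E).card ≤ 2 * Y := by
  simp only [mixed, mem_filter] at hE
  obtain ⟨hEt, -, f, hf, hf2⟩ := hE
  obtain ⟨E2, hE2, hne⟩ := exists_mem_ne (by rw [card_through]; omega : 1 < (through G f).card) E
  rw [mem_through] at hE2
  have hsub : makers G E ⊆ ((sides E2).erase f).biUnion (through G) := by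
    intro D hD
    simp only [makers, mem_filter] at hD
    obtain ⟨hDt, hdis, h1⟩ := hD
    have hnot : E2 ∉ tri (rem G D) := fun hin => by
      have hEin : E ∈ tri (rem G D) := by rw [tri_rem]; exact mem_filter.2 ⟨hEt, hdis⟩
      exact hne ((card_le_one.1 (by rw [card_through, h1 f hf]))
        E2 (mem_through.2 ⟨hin, hE2.2⟩) E (mem_through.2 ⟨hEin, hf⟩))
    rw [tri_rem] at hnot
    simp only [mem_filter, not_and, not_disjoint_iff] at hnot
    obtain ⟨k, hk1, hk2⟩ := hnot hE2.1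
    exact mem_biUnion.2 ⟨k, mem_erase.2 ⟨fun h => disjoint_left.1 hdis hf (h ▸ hk2), hk1⟩,
      mem_through.2 ⟨hDt, hk2⟩⟩
  calc (makers G E).card ≤ _ := card_le_card hsub
    _ ≤ ((sides E2).erase f).card * Y := card_biUnion_le_card_mul _ _ _ fun k hk => by
        rw [card_through]
        exact hY k ((mem_tri.1 hE2.1).2 (mem_erase.1 hk).2)
    _ = 2 * Y := by rw [card_erase_of_mem hE2.2, card_sides (mem_tri.1 hE2.1).1]

/-- The number of events creating an isolated triangle. -/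
lemma sum_newIso_le {n : ℕ} {G : Gr n} {Y : ℕ} (hY : ∀ g ∈ G, deg G g ≤ Y) :
    ∑ D ∈ tri G, ∑ g ∈ rem G D, newIso G D g ≤ 6 * (Y : ℝ) * (mixed G).card := by
  classical
  have h0 : ∀ D ∈ tri G, ∀ g ∈ rem G D,
      newIso G D g ≤ ∑ E ∈ mixed G, if g ∈ sides E ∧ D ∈ makers G E then (1 : ℝ) else 0 := by
    intro D hD g hg
    by_cases hn : deg (rem G D) g = 1 ∧ Iso (rem G D) g ∧ ¬(deg G g = 1 ∧ Iso G g)
    · obtain ⟨hd1, hiso, hold⟩ := hn
      obtain ⟨E, hEeq⟩ := card_eq_one.1 ((card_through (rem G D) g).trans hd1)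
      have hEm : E ∈ through (rem G D) g := by rw [hEeq]; simp
      rw [mem_through] at hEm
      obtain ⟨hEr, hgE⟩ := hEm
      have hE' := hEr
      rw [tri_rem, mem_filter] at hE'
      obtain ⟨hEt, hdis⟩ := hE'
      have hall : ∀ f ∈ sides E, deg (rem G D) f = 1 := hiso E hEr hgE
      obtain ⟨k, hk, hkD⟩ := exists_free_edge (mem_tri.1 hEt).1 hdis
      have hk1 : deg G k = 1 := by
        have := deg_rem_add_lost G k D
        rw [lost_free (mem_sides.1 hk).2 hkD, hall k hk] at this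
        omega
      have hf : ∃ f ∈ sides E, 2 ≤ deg G f := by
        by_contra hc
        push Not at hc
        have hone : ∀ f ∈ sides E, deg G f = 1 := fun f hf => by
          have := deg_pos hEt hf; have := hc f hf; omega
        refine hold ⟨hone g hgE, fun E2 hE2 hgE2 => ?_⟩
        have : E2 = E := (card_le_one.1 (by rw [card_through, hone g hgE]))
          E2 (mem_through.2 ⟨hE2, hgE2⟩) E (mem_through.2 ⟨hEt, hgE⟩)
        rw [this]; exact hone
      have hmix : E ∈ mixed G := mem_filter.2 ⟨hEt, ⟨k, hk, hk1⟩, hf⟩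
      have hmk : D ∈ makers G E := mem_filter.2 ⟨hD, hdis, hall⟩
      calc newIso G D g ≤ 1 := by unfold newIso; split_ifs <;> norm_num
        _ = if g ∈ sides E ∧ D ∈ makers G E then (1 : ℝ) else 0 := (if_pos ⟨hgE, hmk⟩).symm
        _ ≤ _ := single_le_sum (f := fun E => if g ∈ sides E ∧ D ∈ makers G E then (1 : ℝ) else 0)
            (fun E _ => by split_ifs <;> norm_num) hmix
    · rw [newIso, if_neg hn]
      exact sum_nonneg fun E _ => by split_ifs <;> norm_num
  calc ∑ D ∈ tri G, ∑ g ∈ rem G D, newIso G D g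
      ≤ ∑ D ∈ tri G, ∑ g ∈ rem G D, ∑ E ∈ mixed G,
          (if g ∈ sides E ∧ D ∈ makers G E then (1 : ℝ) else 0) :=
        sum_le_sum fun D hD => sum_le_sum fun g hg => h0 D hD g hg
    _ ≤ ∑ D ∈ tri G, ∑ E ∈ mixed G, (if D ∈ makers G E then (3 : ℝ) else 0) := by
        refine sum_le_sum fun D _ => ?_
        rw [sum_comm]
        refine sum_le_sum fun E hE => ?_
        by_cases hm : D ∈ makers G E
        · simp only [hm, and_true, if_true, ← sum_filter]
          rw [sum_const, nsmul_eq_mul, mul_one]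
          have h3 := card_sides (mem_tri.1 (mem_filter.1 hE).1).1
          have : ((rem G D).filter (fun g => g ∈ sides E)).card ≤ 3 :=
            h3 ▸ card_le_card (fun g hg => (mem_filter.1 hg).2)
          exact_mod_cast this
        · simp [hm]
    _ = ∑ E ∈ mixed G, 3 * ((makers G E).card : ℝ) := by
        rw [sum_comm]
        refine sum_congr rfl fun E _ => ?_
        rw [← sum_filter, sum_const, nsmul_eq_mul]
        have : (tri G).filter (fun D => D ∈ makers G E) = makers G E := by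
          ext D; simp only [mem_filter, makers]; tauto
        rw [this]; ring
    _ ≤ ∑ E ∈ mixed G, 6 * (Y : ℝ) := sum_le_sum fun E hE => by
        have h : ((makers G E).card : ℝ) ≤ 2 * Y := by exact_mod_cast card_makers_le hE hY
        linarith
    _ = 6 * (Y : ℝ) * (mixed G).card := by rw [sum_const, nsmul_eq_mul]; ring

/-- The submartingale inequality. -/
lemma drift {n : ℕ} {G : Gr n} {Y : ℕ} (h1 : 1 ≤ Y) (hY : ∀ g ∈ G, deg G g ≤ Y) :
    tR G * hh Y G ≤ ∑ D ∈ tri G, hh Y (rem G D) := by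
  have hY' : (1 : ℝ) ≤ Y := by exact_mod_cast h1
  have hsplit : ∀ D ∈ tri G, hh Y G - ∑ g ∈ sides D, wt Y G g
      + ∑ g ∈ rem G D, ((lost G g D : ℝ) * c2 (deg G g))
      + ∑ g ∈ rem G D, (if 1 ≤ lost G g D then (16 * (Y : ℝ) - 3 / 2) * one1 G g else 0)
      - 3 / 2 * ∑ g ∈ rem G D, newIso G D g ≤ hh Y (rem G D) := by
    intro D hD
    have h := sum_le_sum (s := rem G D) fun g hg =>
      step_ge h1 hD (mem_sdiff.1 hg).2
    simp only [sum_sub_distrib, sum_add_distrib, ← mul_sum] at h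
    have he : ∑ g ∈ rem G D, wt Y G g + ∑ g ∈ sides D, wt Y G g = hh Y G :=
      sum_sdiff (mem_tri.1 hD).2
    rw [show hh Y (rem G D) = ∑ g ∈ rem G D, wt Y (rem G D) g from rfl]
    linarith
  have H := sum_le_sum hsplit
  simp only [sum_sub_distrib, sum_add_distrib, ← mul_sum, sum_const, nsmul_eq_mul] at H
  have hcov : ∑ D ∈ tri G, ∑ g ∈ sides D, wt Y G g
      = ∑ D ∈ tri G, ∑ g ∈ sides D, w2 (deg G g) + 3 / 2 * ∑ D ∈ tri G, ∑ g ∈ sides D, one1 G g := by
    rw [mul_sum, ← sum_add_distrib]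
    refine sum_congr rfl fun D hD => ?_
    rw [mul_sum, ← sum_add_distrib]
    refine sum_congr rfl fun g hg => ?_
    have := deg_pos hD hg
    rw [wt, if_neg (by omega)]
  have hone : ∑ D ∈ tri G, ∑ g ∈ sides D, one1 G g = ∑ g ∈ G, one1 G g := by
    rw [sum_tri_sides]
    refine sum_congr rfl fun g _ => ?_
    unfold one1
    split_ifs with h <;> simp [h]
  have hmain : ∑ D ∈ tri G, ∑ g ∈ sides D, w2 (deg G g)
      ≤ ∑ D ∈ tri G, ∑ g ∈ rem G D, ((lost G g D : ℝ) * c2 (deg G g))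
        + ∑ g ∈ G, one1 G g := by
    rw [swap_avoid G (fun D g => (lost G g D : ℝ) * c2 (deg G g))]
    simp only [← sum_mul, sum_lost_real]
    simp only [sum_mul]
    rw [swap_sides G (fun g E => ((sdeg G E : ℝ) - deg G g - 2) * c2 (deg G g)), ← hone,
      ← sum_add_distrib]
    refine sum_le_sum fun E hE => (triangle_ge hE).trans_eq ?_
    congr 1
    exact sum_congr rfl fun g _ => mul_comm _ _
  have hgain : (16 * (Y : ℝ) - 3 / 2) * ∑ g ∈ G, one1 G g
      ≤ ∑ D ∈ tri G, ∑ g ∈ rem G D,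
        (if 1 ≤ lost G g D then (16 * (Y : ℝ) - 3 / 2) * one1 G g else 0) := by
    rw [swap_avoid G (fun D g => if 1 ≤ lost G g D then (16 * (Y : ℝ) - 3 / 2) * one1 G g else 0),
      mul_sum]
    refine sum_le_sum fun g _ => ?_
    have hnn : ∀ D ∈ (tri G).filter (fun D => g ∉ sides D),
        (0 : ℝ) ≤ if 1 ≤ lost G g D then (16 * (Y : ℝ) - 3 / 2) * one1 G g else 0 :=
      fun D _ => by
        have := one1_nonneg G g
        split_ifs
        · exact mul_nonneg (by linarith) this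
        · exact le_rfl
    by_cases hg : deg G g = 1 ∧ ¬Iso G g
    · obtain ⟨D, hD, hl⟩ := exists_killer hg.1 hg.2
      refine le_trans (le_of_eq ?_) (single_le_sum hnn hD)
      rw [if_pos hl]
    · rw [show one1 G g = 0 from if_neg hg]
      simp
  have hdef := sum_newIso_le hY
  have hmix := card_mixed_le G
  have hN : 0 ≤ ∑ g ∈ G, one1 G g := sum_nonneg fun g _ => one1_nonneg G g
  have hp := mul_le_mul_of_nonneg_left hmix (show (0 : ℝ) ≤ 9 * Y by linarith)
  have hq := mul_le_mul_of_nonneg_right (show (9 * (Y : ℝ) + 5 / 2) ≤ 16 * Y - 3 / 2 by linarith) hN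
  rw [hcov, hone] at H
  simp only [tR]
  linarith

lemma hh_le {n : ℕ} (G : Gr n) {Y : ℕ} (h1 : 1 ≤ Y) (hY : ∀ g ∈ G, deg G g ≤ Y) :
    hh Y G ≤ 16 * (Y : ℝ) * expectFinal (fun e => (e : ℝ)) G := by
  induction G using Finset.strongInduction with
  | H G ih =>
    by_cases ht : tri G = ∅
    · rw [expectFinal_stop _ ht]
      have h0 : ∀ g ∈ G, deg G g = 0 := fun g _ => by simp [deg, ht]
      rw [hh, sum_congr rfl (fun g hg => show wt Y G g = 16 * (Y : ℝ) from if_pos (h0 g hg)),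
        sum_const, nsmul_eq_mul]
      linarith
    · rw [expectFinal_step _ ht]
      have hT : (0 : ℝ) < tR G := by
        simp only [tR]; exact_mod_cast card_pos.2 (nonempty_iff_ne_empty.2 ht)
      have hstep : ∀ D ∈ tri G,
          hh Y (rem G D) ≤ 16 * (Y : ℝ) * expectFinal (fun e => (e : ℝ)) (rem G D) := by
        intro D hD
        refine ih _ (Finset.ssubset_iff_subset_ne.2 ⟨rem_subset G D, fun h => ?_⟩) fun g hg =>
          (deg_rem_le G D g).trans (hY g (rem_subset G D hg))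
        have := card_rem_lt hD
        rw [h] at this
        exact lt_irrefl _ this
      have := (drift h1 hY).trans (sum_le_sum hstep)
      rw [← mul_sum] at this
      simp only [tR] at hT
      rw [← mul_div_assoc, le_div_iff₀ hT]
      simp only [tR] at this ⊢
      linarith

lemma card_two_le {n : ℕ} (G : Gr n) {Y : ℕ} (hY : ∀ g ∈ G, deg G g ≤ Y) :
    ((G.filter (fun g => 2 ≤ deg G g)).card : ℝ) ≤ Real.sqrt Y * hh Y G := by
  rw [hh, mul_sum, card_eq_sum_ones, Nat.cast_sum, sum_filter]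
  refine sum_le_sum fun g hg => ?_
  have hs : 0 ≤ Real.sqrt (Y : ℝ) := Real.sqrt_nonneg _
  split_ifs with h
  · have h2 : (2 : ℝ) ≤ deg G g := by exact_mod_cast h
    have hle : (deg G g : ℝ) ≤ Y := by exact_mod_cast hY g hg
    have hsa : 0 < Real.sqrt ((deg G g : ℝ) - 1) := Real.sqrt_pos.2 (by linarith)
    rw [wt, if_neg (by omega), w2_eq h]
    have := one1_nonneg G g
    have key : 1 ≤ Real.sqrt (Y : ℝ) * (1 / Real.sqrt ((deg G g : ℝ) - 1)) := by
      rw [mul_one_div, one_le_div hsa]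
      exact Real.sqrt_le_sqrt (by linarith)
    push_cast
    nlinarith
  · exact mul_nonneg hs (wt_nonneg Y G g)

end Lower

/-- The expected final edge count dominates the number of edges in at least two triangles. -/
theorem lowerBounded : LowerBounded := by
  intro n G Y h1 hY
  refine (Lower.card_two_le G hY).trans ?_
  have := mul_le_mul_of_nonneg_left (Lower.hh_le G h1 hY) (Real.sqrt_nonneg (Y : ℝ))
  linarith

end Vale.Agent.P046
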