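import Vale.Agent.P046.Interface

/-!
P046: the exponential codegree potential does not increase in expectation.
-/

namespace Vale.Agent.P046

open Finset

variable {n : ℕ} {G : Gr n}

/-- Exchanging the edge that is kept and the triangle that is removed. -/
lemma mm_sum_swap (G : Gr n) (f : Finset (Fin n) → Finset (Fin n) → ℝ) :
    ∑ D ∈ tri G, ∑ g ∈ rem G D, f g D =
      ∑ g ∈ G, ∑ D ∈ (tri G).filter (fun D => g ∉ sides D), f g D := by
  simp only [rem, sdiff_eq_filter, sum_filter]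
  exact sum_comm

/-- The sum of the squared normalised codegrees. -/
lemma mm_deg_sq_le (hlow : ∀ x : ℝ, (x - 1) ^ 2 / 5 ≤ psi x) (hmu : 0 < mu G) :
    ∑ g ∈ G, (deg G g : ℝ) * deg G g ≤ eR G * mu G ^ 2 + 5 * eR G * mu G * pp G := by
  have he : 0 < eR G := by
    by_contra h
    have h0 : eR G = 0 := le_antisymm (not_lt.1 h) (Nat.cast_nonneg _)
    rw [mu, h0, div_zero] at hmu
    exact lt_irrefl _ hmu
  have hs : ∑ g ∈ G, (deg G g : ℝ) = eR G * mu G := by
    have h := sum_deg G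
    have h' : ∑ g ∈ G, (deg G g : ℝ) = 3 * tR G := by
      rw [tR]; exact_mod_cast h
    rw [h', mu, mul_div_cancel₀ _ he.ne']
  have hy : ∀ g ∈ G, (deg G g : ℝ) * deg G g
      ≤ 5 * mu G ^ 2 * psi (xv G g) + (2 * mu G * deg G g - mu G ^ 2) := by
    intro g _
    have h := mul_le_mul_of_nonneg_left (hlow (xv G g)) (show 0 ≤ 5 * mu G ^ 2 by positivity)
    have e : (deg G g : ℝ) = mu G * xv G g := by rw [xv, mul_div_cancel₀ _ hmu.ne']
    rw [e]
    linarith
  refine (sum_le_sum hy).trans_eq ?_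
  rw [sum_add_distrib, ← mul_sum, sum_sub_distrib, ← mul_sum, hs, sum_const, nsmul_eq_mul, pp,
    show (G.card : ℝ) = eR G from rfl]
  field_simp
  ring

/-- One step of the exponent of one edge: the lost triangles only help. -/
lemma mm_exp_step {y d m a c : ℝ} (hm : 4 ≤ m) (hd0 : 0 ≤ d) (hd2 : d ≤ 2) (hc0 : 0 ≤ c)
    (hc1 : c ≤ 1) (ha : a ≤ 1 / 2) (hA : |y / m / 4 * ((a - c) / (1 - a))| ≤ 3 / 4) :
    Real.exp ((y - d) / (4 * (m * (1 - a) / (1 - c)))) ≤
      Real.exp (y / (4 * m)) *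
        (1 + y / m / 4 * ((a - c) / (1 - a)) + 2 * (y / m / 4 * ((a - c) / (1 - a))) ^ 2) := by
  have h1a : (0 : ℝ) < 1 - a := by linarith
  set ρ : ℝ := (1 - c) / (1 - a) with hρ
  have hρ0 : 0 ≤ ρ := div_nonneg (by linarith) h1a.le
  have hρ2 : ρ ≤ 2 := by rw [hρ, div_le_iff₀ h1a]; linarith
  set B : ℝ := d * ρ / (4 * m) with hB
  have hB0 : 0 ≤ B := div_nonneg (mul_nonneg hd0 hρ0) (by linarith)
  have hB1 : B ≤ 1 / 4 := by
    rw [hB, div_le_iff₀ (by linarith)]
    have := mul_le_mul hd2 hρ2 hρ0 (by norm_num : (0 : ℝ) ≤ 2)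
    linarith
  set A : ℝ := y / m / 4 * ((a - c) / (1 - a)) with hAdef
  have hexp : (y - d) / (4 * (m * (1 - a) / (1 - c))) = y / (4 * m) + (A - B) := by
    rw [hAdef, hB, hρ]
    field_simp
    ring
  rw [hexp, Real.exp_add]
  refine mul_le_mul_of_nonneg_left ?_ (Real.exp_pos _).le
  have habs : |A - B| ≤ 1 := by
    obtain ⟨hA2, hA3⟩ := abs_le.1 hA
    rw [abs_le]; constructor <;> linarith
  have h2 := (abs_le.1 (Real.abs_exp_sub_one_sub_id_le habs)).2
  nlinarith [sq_nonneg (A + B), mul_nonneg hB0 (show 0 ≤ 1 - 2 * B by linarith)]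

/-- The bound for a single edge. -/
lemma mm_edge_bound {K c : ℝ} {a q : Finset (Fin n) → ℝ} {g : Finset (Fin n)}
    (hgK : (deg G g : ℝ) ≤ K * mu G) (hmu4 : 4 ≤ mu G) (hK1 : 1 ≤ K) (he : 0 < eR G)
    (hc0 : 0 ≤ c) (hc1 : c ≤ 1) (hk2e : K ^ 2 / eR G ≤ 1 / 100) (hk3e : K ^ 3 / eR G ≤ 1 / 100)
    (hstate : ∀ D ∈ tri G, a D ≤ 1 / 2 ∧ mu (rem G D) = mu G * (1 - a D) / (1 - c) ∧
      q D = (a D - c) / (1 - a D))
    (hqabs : ∀ D ∈ tri G, |q D| ≤ 24 * (K / eR G))
    (hsum : ∑ D ∈ tri G, q D ≤ mu G * (2 + 1 / 1000) + 72 * mu G * (K ^ 2 / eR G)) :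
    ∑ D ∈ (tri G).filter (fun D => g ∉ sides D),
      Real.exp ((deg (rem G D) g : ℝ) / (4 * mu (rem G D)))
        ≤ tR G * Real.exp ((deg G g : ℝ) / (4 * mu G)) := by
  have hmu : 0 < mu G := by linarith
  have hk0 : 0 ≤ K / eR G := by positivity
  set y : ℝ := (deg G g : ℝ) with hy
  set x : ℝ := y / mu G with hx
  have hy0 : 0 ≤ y := Nat.cast_nonneg _
  have hx0 : 0 ≤ x := by positivity
  have hxK : x ≤ K := by rw [hx, div_le_iff₀ hmu]; exact hgK
  have hstep : ∀ D ∈ (tri G).filter (fun D => g ∉ sides D),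
      Real.exp ((deg (rem G D) g : ℝ) / (4 * mu (rem G D))) ≤
        Real.exp (y / (4 * mu G)) * (1 + x / 4 * q D + 2 * (x / 4 * q D) ^ 2) := by
    intro D hDf
    obtain ⟨hDm, hgD⟩ := mem_filter.1 hDf
    obtain ⟨hah, hmu', hqD⟩ := hstate D hDm
    have hl : (deg (rem G D) g : ℝ) = y - (lost G g D : ℝ) := by
      rw [eq_sub_iff_add_eq, hy]
      exact_mod_cast deg_rem_add_lost G g D
    rw [hl, hmu', hx, hqD]
    refine mm_exp_step hmu4 (Nat.cast_nonneg _) (by exact_mod_cast lost_le_two hDm hgD) hc0 hc1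
      hah ?_
    rw [← hqD, ← hx, abs_mul, abs_of_nonneg (by positivity : 0 ≤ x / 4)]
    refine (mul_le_mul (div_le_div_of_nonneg_right hxK (by norm_num)) (hqabs D hDm)
      (abs_nonneg _) (by linarith)).trans ?_
    rw [show K / 4 * (24 * (K / eR G)) = 6 * (K ^ 2 / eR G) by ring]
    linarith
  refine (sum_le_sum hstep).trans ?_
  rw [← mul_sum, mul_comm (tR G)]
  refine mul_le_mul_of_nonneg_left ?_ (Real.exp_pos _).le
  rw [sum_add_distrib, sum_add_distrib, sum_const, nsmul_eq_mul, mul_one, ← mul_sum]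
  have hcard : (((tri G).filter (fun D => g ∉ sides D)).card : ℝ) = tR G - y := by
    rw [eq_sub_iff_add_eq, hy, tR, deg, add_comm]
    exact_mod_cast card_filter_add_card_filter_not (s := tri G) (fun D => g ∈ sides D)
  rw [hcard]
  have hq1 : ∑ D ∈ (tri G).filter (fun D => g ∉ sides D), q D
      ≤ mu G * (2 + 1 / 1000) + 96 * mu G * (K ^ 2 / eR G) := by
    have h1 := sum_filter_add_sum_filter_not (tri G) (fun D => g ∈ sides D) q
    have h2 : (((tri G).filter (fun D => g ∈ sides D)).card : ℝ) * -(24 * (K / eR G))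
        ≤ ∑ D ∈ (tri G).filter (fun D => g ∈ sides D), q D := by
      rw [← nsmul_eq_mul]
      exact card_nsmul_le_sum _ _ _ fun D hDm =>
        (abs_le.1 (hqabs D (mem_filter.1 hDm).1)).1
    have h3 : y * (24 * (K / eR G)) ≤ 24 * mu G * (K ^ 2 / eR G) :=
      (mul_le_mul_of_nonneg_right (hgK) (by positivity)).trans_eq (by ring)
    rw [show (((tri G).filter (fun D => g ∈ sides D)).card : ℝ) = y from rfl] at h2
    linarith
  have hq2 : ∑ D ∈ (tri G).filter (fun D => g ∉ sides D), 2 * (x / 4 * q D) ^ 2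
      ≤ x * (24 * mu G * (K ^ 3 / eR G)) := by
    refine (sum_le_card_nsmul _ _ (2 * (x / 4 * (24 * (K / eR G))) ^ 2) fun D hDm => ?_).trans ?_
    · refine mul_le_mul_of_nonneg_left (sq_le_sq.2 ?_) (by norm_num)
      rw [abs_mul, abs_mul]
      exact mul_le_mul_of_nonneg_left ((hqabs D (mem_filter.1 hDm).1).trans (le_abs_self _))
        (abs_nonneg _)
    rw [nsmul_eq_mul, hcard]
    calc (tR G - y) * (2 * (x / 4 * (24 * (K / eR G))) ^ 2)
        ≤ tR G * (2 * (x / 4 * (24 * (K / eR G))) ^ 2) :=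
          mul_le_mul_of_nonneg_right (by linarith) (by positivity)
      _ = x * x * (72 * tR G * (K ^ 2 / eR G ^ 2)) := by ring
      _ ≤ x * K * (72 * tR G * (K ^ 2 / eR G ^ 2)) :=
          mul_le_mul_of_nonneg_right (mul_le_mul_of_nonneg_left hxK hx0)
            (mul_nonneg (mul_nonneg (by norm_num) (Nat.cast_nonneg _)) (by positivity))
      _ = _ := by
          rw [mu]; field_simp; ring
  have h5 := mul_le_mul_of_nonneg_left hq1 (show 0 ≤ x / 4 by positivity)
  have h6 : x / 4 * (mu G * (2 + 1 / 1000) + 96 * mu G * (K ^ 2 / eR G))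
      + x * (24 * mu G * (K ^ 3 / eR G)) ≤ y := by
    have e : y = x * mu G := by rw [hx, div_mul_cancel₀ _ hmu.ne']
    rw [e]
    calc x / 4 * (mu G * (2 + 1 / 1000) + 96 * mu G * (K ^ 2 / eR G))
          + x * (24 * mu G * (K ^ 3 / eR G))
        = x * mu G * ((2 + 1 / 1000) / 4 + 24 * (K ^ 2 / eR G) + 24 * (K ^ 3 / eR G)) := by
          ring
      _ ≤ x * mu G * 1 := mul_le_mul_of_nonneg_left (by linarith) (by positivity)
      _ = _ := mul_one _
  linarith

theorem mDrift (hS : StepFacts) (hp : PsiFacts) : MDrift := by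
  intro n G hbig hgood
  obtain ⟨hen, -, hT, hD⟩ := hS n G hbig hgood
  obtain ⟨hL, hK, hP, -⟩ := hgood
  obtain ⟨hlam, hn⟩ := hbig
  set lm := lam n with hlm
  have hlam0 : 0 < lm := by linarith
  -- sizes
  set K := kk n with hKdef
  have hKe : K = 32 * lm := rfl
  have hK1 : 1 ≤ K := by rw [hKe]; linarith
  have hn1 : (1 : ℝ) ≤ n := le_trans (by
    have : (1 : ℝ) ≤ lm ^ 20 := one_le_pow₀ (by linarith)
    nlinarith) hn
  have he1 : 100 * K ^ 3 ≤ eR G := by
    refine le_trans ?_ ((le_mul_of_one_le_right (by linarith)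
      (Real.one_le_sqrt.2 hn1)).trans hen)
    refine le_trans ?_ hn
    rw [hKe, mul_pow, ← mul_assoc]
    exact mul_le_mul (by norm_num) (pow_le_pow_right₀ (by linarith) (by norm_num)) (by positivity)
      (by positivity)
  have he : 0 < eR G := lt_of_lt_of_le (by positivity) he1
  have hmuL : 10 ^ 17 * lm ^ 4 ≤ mu G := hL
  have hmu4 : 4 ≤ mu G := le_trans (by
    have : (1 : ℝ) ≤ lm ^ 4 := one_le_pow₀ (by linarith)
    nlinarith) hmuL
  have hmu : 0 < mu G := by linarith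
  have hTmu : 3 * tR G = mu G * eR G := by rw [mu, div_mul_cancel₀ _ he.ne']
  have hKK : K ^ 2 ≤ K ^ 3 := pow_le_pow_right₀ hK1 (by norm_num)
  have hKb : K ≤ K ^ 3 := le_self_pow₀ hK1 (by norm_num)
  have hke : K / eR G ≤ 1 / 100 := by
    rw [div_le_iff₀ he]; linarith
  have hk2e : K ^ 2 / eR G ≤ 1 / 100 := by
    rw [div_le_iff₀ he]; linarith
  have hk3e : K ^ 3 / eR G ≤ 1 / 100 := by
    rw [div_le_iff₀ he]; linarith
  have hpp : 15 * pp G ≤ mu G / 1000 := by
    have h1 : pp G ≤ 3 * 10 ^ 12 * lm ^ 3 := hP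
    have h2 : 10 * lm ^ 3 ≤ lm ^ 4 := by
      rw [pow_succ lm 3, mul_comm (lm ^ 3) lm]
      exact mul_le_mul_of_nonneg_right hlam (by positivity)
    linarith [show (0 : ℝ) ≤ lm ^ 3 by positivity]
  -- the relative change of the inverse mean codegree
  set a : Finset (Fin n) → ℝ := fun D => ((sdeg G D : ℝ) - 2) / tR G with ha
  set c : ℝ := 3 / eR G with hc
  have hc0 : 0 ≤ c := by positivity
  set q : Finset (Fin n) → ℝ := fun D => (a D - c) / (1 - a D) with hq
  have haD : ∀ D ∈ tri G, 0 ≤ a D ∧ a D ≤ 9 * (K / eR G) := by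
    intro D hDm
    obtain ⟨-, -, h0, h1, -⟩ := hD D hDm
    exact ⟨h0, h1.trans_eq (by ring)⟩
  have hcK : c ≤ 3 * (K / eR G) := by
    rw [hc, mul_div_assoc']
    exact div_le_div_of_nonneg_right (by linarith) he.le
  have hk0 : 0 ≤ K / eR G := by positivity
  have hqabs : ∀ D ∈ tri G, |q D| ≤ 24 * (K / eR G) := by
    intro D hDm
    obtain ⟨h0, h1⟩ := haD D hDm
    have hh : (1 : ℝ) / 2 ≤ 1 - a D := by linarith
    rw [hq, abs_div, abs_of_pos (by linarith : 0 < 1 - a D), div_le_iff₀ (by linarith)]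
    calc |a D - c| ≤ 12 * (K / eR G) := by rw [abs_le]; constructor <;> linarith
      _ = 24 * (K / eR G) * (1 / 2) := by ring
      _ ≤ _ := mul_le_mul_of_nonneg_left hh (by linarith)
  have hqle : ∀ D ∈ tri G, q D ≤ (a D - c) + 216 * (K / eR G) ^ 2 := by
    intro D hDm
    obtain ⟨h0, h1⟩ := haD D hDm
    have hh : (0 : ℝ) < 1 - a D := by linarith
    have e : q D = (a D - c) + q D * a D := by
      rw [hq]; field_simp; ring
    rw [e]
    refine add_le_add le_rfl (((le_abs_self _).trans_eq (abs_mul _ _)).trans ?_)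
    rw [abs_of_nonneg h0]
    refine (mul_le_mul (hqabs D hDm) h1 h0 (by linarith)).trans_eq ?_
    ring
  have hsum : ∑ D ∈ tri G, q D ≤ mu G * (2 + 1 / 1000) + 72 * mu G * (K ^ 2 / eR G) := by
    have h1 := sum_le_sum hqle
    rw [sum_add_distrib, sum_const, nsmul_eq_mul, show ((tri G).card : ℝ) = tR G from rfl] at h1
    have h2 : ∑ D ∈ tri G, (a D - c) ≤ mu G * (2 + 1 / 1000) := by
      have hS2 : ∑ D ∈ tri G, (sdeg G D : ℝ) = ∑ g ∈ G, (deg G g : ℝ) * deg G g := by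
        exact_mod_cast sum_sdeg G
      have e : ∑ D ∈ tri G, (a D - c)
          = (∑ g ∈ G, (deg G g : ℝ) * deg G g) / tR G - 2 - mu G := by
        rw [sum_sub_distrib, ha]
        simp only [← sum_div, sum_sub_distrib, sum_const, nsmul_eq_mul]
        rw [hS2, show ((tri G).card : ℝ) = tR G from rfl, hc, mu]
        field_simp
      rw [e]
      have h3 : (∑ g ∈ G, (deg G g : ℝ) * deg G g) / tR G ≤ 3 * mu G + 15 * pp G := by
        rw [div_le_iff₀ hT]
        refine (mm_deg_sq_le hp.1 hmu).trans_eq ?_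
        linear_combination (-(mu G + 5 * pp G)) * hTmu
      linarith
    have h4 : tR G * (216 * (K / eR G) ^ 2) = 72 * mu G * (K ^ 2 / eR G) := by
      rw [mu]; field_simp; ring
    linarith
  -- edge by edge
  have hedge : ∀ g ∈ G, ∑ D ∈ (tri G).filter (fun D => g ∉ sides D),
      Real.exp ((deg (rem G D) g : ℝ) / (4 * mu (rem G D)))
        ≤ tR G * Real.exp ((deg G g : ℝ) / (4 * mu G)) := fun g hg =>
    mm_edge_bound (hK g hg) hmu4 hK1 he hc0 (by linarith) hk2e hk3e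
      (fun D hDm => ⟨(haD D hDm).2.trans (by linarith), (hD D hDm).2.2.2.2.2.2.1, rfl⟩) hqabs hsum
  calc ∑ D ∈ tri G, mm (rem G D)
      = ∑ g ∈ G, ∑ D ∈ (tri G).filter (fun D => g ∉ sides D),
          Real.exp ((deg (rem G D) g : ℝ) / (4 * mu (rem G D))) := by
        simp only [mm]
        exact mm_sum_swap G fun g D => Real.exp ((deg (rem G D) g : ℝ) / (4 * mu (rem G D)))
    _ ≤ ∑ g ∈ G, tR G * Real.exp ((deg G g : ℝ) / (4 * mu G)) := sum_le_sum hedge
    _ = tR G * mm G := by rw [mm, mul_sum]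

end Vale.Agent.P046
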