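import Vale.Agent.P046.StepFacts

/-!
P046: the exponential of the dispersion potential is a supermartingale in good states, given the
per triangle inequality `CertQ` and the one variable facts `PsiFacts`.
-/

namespace Vale.Agent.P046

open Finset

/-- The algebra of `ρ = (1-c)/(1-a)`. -/
lemma rho_bounds {a c ε : ℝ} (ha0 : 0 ≤ a) (ha : a ≤ ε) (hc0 : 0 ≤ c) (hc : c ≤ ε)
    (hε : ε ≤ 1 / 100) :
    |(1 - c) / (1 - a) - 1| ≤ 2 * ε ∧ |(1 - c) / (1 - a) - 1 - (a - c)| ≤ 2 * ε ^ 2 ∧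
      |(1 - c) / (1 - a)| ≤ 21 / 20 := by
  have h1 : (0:ℝ) < 1 - a := by linarith
  have hε0 : 0 ≤ ε := le_trans ha0 ha
  refine ⟨?_, ?_, ?_⟩
  · have : (1 - c) / (1 - a) - 1 = (a - c) / (1 - a) := by field_simp; ring
    rw [this, abs_div, abs_of_pos h1, div_le_iff₀ h1]
    have : |a - c| ≤ ε := abs_le.2 ⟨by linarith, by linarith⟩
    nlinarith
  · have : (1 - c) / (1 - a) - 1 - (a - c) = (a - c) * a / (1 - a) := by field_simp; ring
    rw [this, abs_div, abs_of_pos h1, div_le_iff₀ h1, abs_mul, abs_of_nonneg ha0]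
    have h2 : |a - c| ≤ ε := abs_le.2 ⟨by linarith, by linarith⟩
    nlinarith [abs_nonneg (a - c), mul_le_mul h2 ha ha0 hε0]
  · rw [abs_div, abs_of_pos h1, abs_of_nonneg (by linarith : (0:ℝ) ≤ 1 - c), div_le_iff₀ h1]
    linarith

/-- The algebra of `η = (1-a)/(1-c)^2 - 1`. -/
lemma eta_bounds {a c ε : ℝ} (ha0 : 0 ≤ a) (ha : a ≤ ε) (hc0 : 0 ≤ c) (hc : c ≤ ε)
    (hε : ε ≤ 1 / 100) :
    |(1 - a) / (1 - c) ^ 2 - 1| ≤ 3 * ε ∧
      |(1 - a) / (1 - c) ^ 2 - 1 - (2 * c - a)| ≤ 8 * ε ^ 2 := by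
  have h1 : (0:ℝ) < (1 - c) ^ 2 := by nlinarith
  have h2 : (97:ℝ) / 100 ≤ (1 - c) ^ 2 := by nlinarith
  have hε0 : 0 ≤ ε := le_trans ha0 ha
  constructor
  · have : (1 - a) / (1 - c) ^ 2 - 1 = (2 * c - c ^ 2 - a) / (1 - c) ^ 2 := by
      rw [eq_div_iff h1.ne', sub_mul, div_mul_cancel₀ _ h1.ne']; ring
    rw [this, abs_div, abs_of_pos h1, div_le_iff₀ h1]
    have : |2 * c - c ^ 2 - a| ≤ 2 * ε := abs_le.2 ⟨by nlinarith, by nlinarith⟩
    nlinarith
  · have : (1 - a) / (1 - c) ^ 2 - 1 - (2 * c - a) =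
        (c ^ 2 * (3 - 2 * c) - a * c * (2 - c)) / (1 - c) ^ 2 := by
      rw [eq_div_iff h1.ne', sub_mul, sub_mul, div_mul_cancel₀ _ h1.ne']; ring
    rw [this, abs_div, abs_of_pos h1, div_le_iff₀ h1]
    have hcc : c ^ 2 ≤ ε ^ 2 := pow_le_pow_left₀ hc0 hc 2
    have hac : a * c ≤ ε ^ 2 := by nlinarith
    have : |c ^ 2 * (3 - 2 * c) - a * c * (2 - c)| ≤ 3 * ε ^ 2 :=
      abs_le.2 ⟨by nlinarith [mul_nonneg ha0 hc0, pow_nonneg hc0 2],
        by nlinarith [mul_nonneg ha0 hc0, pow_nonneg hc0 2]⟩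
    nlinarith [pow_nonneg hε0 2]

/-- The second order remainder of one edge. -/
lemma edge_rem (hp : PsiFacts) {x d ρ μ K ε a c : ℝ} (hx0 : 0 ≤ x) (hxK : x ≤ K) (hK : 1 ≤ K)
    (hd0 : 0 ≤ d) (hd2 : d ≤ 2) (hμ : 0 < μ) (hε : 0 ≤ ε)
    (h1 : |ρ - 1| ≤ 2 * ε) (h2 : |ρ - 1 - (a - c)| ≤ 2 * ε ^ 2) (h3 : |ρ| ≤ 21 / 20) :
    |psi ((x * μ - d) * ρ / μ) - psi x - phi x * (x * (a - c) - d / μ)| ≤
      100 * K ^ 2 * ε ^ 2 + d * (50 / μ ^ 2 + 20 * K * ε / μ) := by
  obtain ⟨-, -, hphi, -, htay⟩ := hp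
  set δ := (x * μ - d) * ρ / μ - x with hδ
  have hδeq : δ = x * (ρ - 1) - d * ρ / μ := by rw [hδ]; field_simp; ring
  have hr : |x - 1| ≤ K := abs_le.2 ⟨by linarith, by linarith⟩
  have hph : |phi x| ≤ 10 * K := le_trans (hphi x) (by linarith)
  have hx2 : x ^ 2 ≤ K ^ 2 := pow_le_pow_left₀ hx0 hxK 2
  have hsq : δ ^ 2 ≤ 8 * K ^ 2 * ε ^ 2 + 5 * d / μ ^ 2 := by
    have e1 : δ ^ 2 ≤ 2 * (x * (ρ - 1)) ^ 2 + 2 * (d * ρ / μ) ^ 2 := by
      rw [hδeq]; nlinarith [sq_nonneg (x * (ρ - 1) + d * ρ / μ)]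
    have r1 : (ρ - 1) ^ 2 ≤ 4 * ε ^ 2 := by
      nlinarith [sq_abs (ρ - 1), abs_nonneg (ρ - 1)]
    have r2 : ρ ^ 2 ≤ 5 / 4 := by nlinarith [sq_abs ρ, abs_nonneg ρ]
    have e2 : (x * (ρ - 1)) ^ 2 ≤ 4 * K ^ 2 * ε ^ 2 := by
      rw [mul_pow]; nlinarith [mul_le_mul hx2 r1 (sq_nonneg _) (sq_nonneg K)]
    have e3 : (d * ρ / μ) ^ 2 ≤ (5 / 2) * d / μ ^ 2 := by
      rw [div_pow, mul_pow]
      apply div_le_div_of_nonneg_right _ (by positivity)
      nlinarith [mul_le_mul (mul_le_mul_of_nonneg_left hd2 hd0) r2 (sq_nonneg _) (by positivity)]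
    calc δ ^ 2 ≤ _ := e1
      _ ≤ 2 * (4 * K ^ 2 * ε ^ 2) + 2 * ((5 / 2) * d / μ ^ 2) := by linarith
      _ = _ := by ring
  have hl : |δ - (x * (a - c) - d / μ)| ≤ 2 * K * ε ^ 2 + d * (2 * ε / μ) := by
    have heq : δ - (x * (a - c) - d / μ) = x * (ρ - 1 - (a - c)) + (-(d * ((ρ - 1) / μ))) := by
      rw [hδeq]; ring
    rw [heq]
    refine le_trans (abs_add_le _ _) ?_
    rw [abs_neg, abs_mul, abs_mul, abs_of_nonneg hx0, abs_of_nonneg hd0, abs_div,
      abs_of_pos hμ]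
    have : |ρ - 1| / μ ≤ 2 * ε / μ := div_le_div_of_nonneg_right h1 hμ.le
    nlinarith [mul_le_mul hxK h2 (abs_nonneg _) (by linarith)]
  have ht := htay x ((x * μ - d) * ρ / μ)
  rw [← hδ] at ht
  have heq : psi ((x * μ - d) * ρ / μ) - psi x - phi x * (x * (a - c) - d / μ) =
      (psi ((x * μ - d) * ρ / μ) - psi x - phi x * δ) + phi x * (δ - (x * (a - c) - d / μ)) := by
    ring
  rw [heq]
  refine le_trans (abs_add_le _ _) ?_
  rw [abs_mul]
  have h4 := mul_le_mul hph hl (abs_nonneg _) (by linarith)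
  have h5 : 10 * K * (2 * K * ε ^ 2 + d * (2 * ε / μ)) =
      20 * K ^ 2 * ε ^ 2 + d * (20 * K * ε / μ) := by ring
  have h6 : 5 * d / μ ^ 2 * 10 = d * (50 / μ ^ 2) := by ring
  have h7 : 0 ≤ K ^ 2 * ε ^ 2 := by positivity
  nlinarith

lemma psi_nonneg_of (hp : PsiFacts) (x : ℝ) : 0 ≤ psi x :=
  le_trans (by positivity) (hp.1 x)

section Good

variable {n : ℕ} {G : Gr n}

lemma xv_nonneg (g : Finset (Fin n)) (hm : 0 < mu G) : 0 ≤ xv G g :=
  div_nonneg (Nat.cast_nonneg _) hm.le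

lemma sum_xv (hm : 0 < mu G) (he : 0 < eR G) : ∑ g ∈ G, xv G g = eR G := by
  simp only [xv]
  rw [← sum_div, ← Nat.cast_sum, sum_deg, div_eq_iff hm.ne', mul_comm (eR G), mu_mul_eR he]
  simp [tR]

lemma sum_sq_dev_le (hp : PsiFacts) :
    ∑ g ∈ G, (xv G g - 1) ^ 2 ≤ 5 * ∑ g ∈ G, psi (xv G g) := by
  rw [mul_sum]
  exact sum_le_sum fun g _ => by linarith [hp.1 (xv G g)]

lemma abs_first_moment (hp : PsiFacts) (hm : 0 < mu G) (he : 0 < eR G) :
    |∑ g ∈ G, xv G g * phi (xv G g)| ≤ 10 * ∑ g ∈ G, (xv G g - 1) ^ 2 := by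
  have h0 : ∑ g ∈ G, 2 * (xv G g - 1) = 0 := by
    rw [← mul_sum, sum_sub_distrib, sum_xv hm he, sum_const, nsmul_eq_mul]
    simp [eR]
  have heq : ∑ g ∈ G, xv G g * phi (xv G g) =
      ∑ g ∈ G, (xv G g * phi (xv G g) - 2 * (xv G g - 1)) := by
    rw [sum_sub_distrib, h0, sub_zero]
  rw [heq, mul_sum]
  exact le_trans (abs_sum_le_sum_abs _ _) (sum_le_sum fun g _ => hp.2.2.2.1 _)

/-- `S/T = 3 μ (1 + v)`, multiplied out. -/
lemma sum_sdeg_real (hm : 0 < mu G) (he : 0 < eR G) :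
    ∑ D ∈ tri G, (sdeg G D : ℝ) =
      mu G ^ 2 * (∑ g ∈ G, (xv G g - 1) ^ 2 + eR G) := by
  have h1 : ∑ D ∈ tri G, (sdeg G D : ℝ) = mu G ^ 2 * ∑ g ∈ G, xv G g ^ 2 := by
    rw [← Nat.cast_sum, sum_sdeg, mul_sum, Nat.cast_sum]
    refine sum_congr rfl fun g _ => ?_
    simp only [xv]
    push_cast
    field_simp
  rw [h1]
  congr 1
  have h2 : ∀ g ∈ G, (xv G g - 1) ^ 2 = xv G g ^ 2 - 2 * xv G g + 1 := fun g _ => by ring
  rw [sum_congr rfl h2, sum_add_distrib, sum_sub_distrib, ← mul_sum, sum_xv hm he, sum_const,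
    nsmul_eq_mul]
  simp only [eR]
  ring

/-- The first order change of the dispersion when `D` is removed. -/
noncomputable def lin {n : ℕ} (G : Gr n) (D : Finset (Fin n)) : ℝ :=
  (2 * (3 / eR G) - ((sdeg G D : ℝ) - 2) / tR G) * (∑ g ∈ G, psi (xv G g))
  + (-(∑ g ∈ sides D, psi (xv G g))
    + (((sdeg G D : ℝ) - 2) / tR G - 3 / eR G) * (∑ g ∈ G, xv G g * phi (xv G g))
    - (∑ g ∈ rem G D, phi (xv G g) * (lost G g D : ℝ)) / mu G)

lemma sum_phi_lost (hm : 0 < mu G) :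
    ∑ D ∈ tri G, ∑ g ∈ rem G D, phi (xv G g) * (lost G g D : ℝ) =
      ∑ D ∈ tri G, ∑ g ∈ sides D,
        phi (xv G g) * ((sdeg G D : ℝ) - (deg G g : ℝ) - 2) := by
  have _ := hm
  have h1 : ∀ D ∈ tri G, ∑ g ∈ rem G D, phi (xv G g) * (lost G g D : ℝ) =
      ∑ g ∈ G, if g ∉ sides D then phi (xv G g) * (lost G g D : ℝ) else 0 := fun D _ => by
    rw [← sum_filter, rem, sdiff_eq_filter]
  rw [sum_congr rfl h1, sum_comm]
  have h2 : ∀ D ∈ tri G, ∑ g ∈ sides D, phi (xv G g) * ((sdeg G D : ℝ) - (deg G g : ℝ) - 2) =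
      ∑ g ∈ G, if g ∈ sides D then
        phi (xv G g) * ((sdeg G D : ℝ) - (deg G g : ℝ) - 2) else 0 := fun D hD => by
    rw [← sum_filter]
    congr 1
    ext g
    simp only [mem_filter]
    exact ⟨fun h => ⟨(mem_tri.1 hD).2 h, h⟩, fun h => h.2⟩
  rw [sum_congr rfl h2]
  conv_rhs => rw [sum_comm]
  refine sum_congr rfl fun g _ => ?_
  rw [← sum_filter, ← sum_filter, ← mul_sum, ← mul_sum]
  congr 1
  have h := sum_lost (G := G) (g := g)
  have h' : ∑ D ∈ (tri G).filter (fun D => g ∉ sides D), (lost G g D : ℝ) +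
      ∑ E ∈ (tri G).filter (fun E => g ∈ sides E), ((deg G g : ℝ) + 2) =
      ∑ E ∈ (tri G).filter (fun E => g ∈ sides E), (sdeg G E : ℝ) := by
    exact_mod_cast h
  simp only [sum_sub_distrib]
  rw [sum_add_distrib] at h'
  linarith

/-- The drift inequality: the sum over triangles of the first order change. -/
lemma sum_lin_le (hc : CertQ) (hp : PsiFacts) (hm : 0 < mu G) (he : 0 < eR G) (ht : 0 < tR G) :
    mu G / eR G * ∑ D ∈ tri G, lin G D ≤ 2 * pp G + 750 * pp G ^ 2 := by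
  set Ψ := ∑ g ∈ G, psi (xv G g) with hΨ
  set S1 := ∑ g ∈ G, xv G g * phi (xv G g) with hS1
  set Q := ∑ g ∈ G, (xv G g - 1) ^ 2 with hQ
  have hΨ0 : 0 ≤ Ψ := sum_nonneg fun g _ => psi_nonneg_of hp _
  -- the per triangle inequality, summed
  have hcert : ∑ D ∈ tri G, ∑ g ∈ sides D,
      (psi (xv G g) / xv G g - phi (xv G g) * (2 - 2 / mu G)) ≥
      - ∑ D ∈ tri G, (∑ g ∈ sides D,
        (psi (xv G g) + phi (xv G g) * ((sdeg G D : ℝ) - (deg G g : ℝ) - 2) / mu G)) := by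
    rw [ge_iff_le, ← sum_neg_distrib]
    refine sum_le_sum fun D hD => ?_
    obtain ⟨h3, hsub⟩ := mem_tri.1 hD
    obtain ⟨g1, g2, g3, h12, h13, h23, hs⟩ := card_eq_three.1 (card_sides h3)
    have hpos : ∀ g ∈ sides D, 0 < xv G g := fun g hg =>
      div_pos (by exact_mod_cast deg_pos hD hg) hm
    have hp1 := hpos g1 (by simp [hs])
    have hp2 := hpos g2 (by simp [hs])
    have hp3 := hpos g3 (by simp [hs])
    have hq := hc _ _ _ hp1 hp2 hp3
    have hsd : (sdeg G D : ℝ) / mu G = xv G g1 + xv G g2 + xv G g3 := by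
      simp only [sdeg, hs, xv]
      rw [sum_insert (by simp [h12, h13]), sum_insert (by simp [h23]), sum_singleton]
      push_cast
      ring
    have hterm : ∀ g : Finset (Fin n),
        phi (xv G g) * ((sdeg G D : ℝ) - (deg G g : ℝ) - 2) / mu G =
        phi (xv G g) * (xv G g1 + xv G g2 + xv G g3 - xv G g - 2 / mu G) := fun g => by
      rw [← hsd]; simp only [xv]; ring
    simp only [hterm]
    rw [hs, sum_insert (by simp [h12, h13]), sum_insert (by simp [h23]), sum_singleton,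
      sum_insert (by simp [h12, h13]), sum_insert (by simp [h23]), sum_singleton]
    simp only [qq] at hq
    linarith [hq]
  have hA : ∑ D ∈ tri G, ((sdeg G D : ℝ) - 2) / tR G =
      3 * mu G + 3 * mu G * Q / eR G - 2 := by
    rw [← sum_div, sum_sub_distrib, sum_sdeg_real hm he, sum_const, nsmul_eq_mul, ← hQ]
    have hT : tR G = mu G * eR G / 3 := by rw [mu_mul_eR he]; ring
    change (mu G ^ 2 * (Q + eR G) - tR G * 2) / tR G = _
    rw [hT]
    field_simp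
    ring
  have hc3 : ∑ _D ∈ tri G, 3 / eR G = mu G := by
    rw [sum_const, nsmul_eq_mul]
    change tR G * (3 / eR G) = mu G
    rw [mu]; ring
  -- sums over the sides
  have hsd1 : ∑ D ∈ tri G, ∑ g ∈ sides D,
      (psi (xv G g) / xv G g - phi (xv G g) * (2 - 2 / mu G)) ≤
      mu G * Ψ - (2 * mu G - 2) * S1 := by
    rw [sum_tri_sides, hΨ, hS1, mul_sum, mul_sum, ← sum_sub_distrib]
    refine sum_le_sum fun g _ => ?_
    rw [nsmul_eq_mul, mul_sub]
    have e1 : (deg G g : ℝ) * (psi (xv G g) / xv G g) ≤ mu G * psi (xv G g) := by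
      rcases Nat.eq_zero_or_pos (deg G g) with h | h
      · rw [h]; push_cast; rw [zero_mul]; exact mul_nonneg hm.le (psi_nonneg_of hp _)
      · apply le_of_eq
        have : (0:ℝ) < (deg G g : ℝ) := by exact_mod_cast h
        simp only [xv]
        field_simp
    have e2 : (deg G g : ℝ) * (phi (xv G g) * (2 - 2 / mu G)) =
        (2 * mu G - 2) * (xv G g * phi (xv G g)) := by
      simp only [xv]; field_simp
    linarith
  -- assemble
  have hlin : ∑ D ∈ tri G, lin G D =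
      (2 * mu G - (3 * mu G + 3 * mu G * Q / eR G - 2)) * Ψ
      + ((3 * mu G + 3 * mu G * Q / eR G - 2) - mu G) * S1
      - ∑ D ∈ tri G, (∑ g ∈ sides D,
        (psi (xv G g) + phi (xv G g) * ((sdeg G D : ℝ) - (deg G g : ℝ) - 2) / mu G)) := by
    simp only [lin, ← hΨ, ← hS1, sum_add_distrib, sum_sub_distrib, sum_neg_distrib, ← sum_mul]
    have h2c : (∑ _D ∈ tri G, (2:ℝ)) * (3 / eR G) = 2 * mu G := by
      rw [sum_mul, ← mul_sum, hc3]
    simp only [← sum_sub_distrib, ← sum_div] at hA ⊢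
    simp only [sum_sub_distrib] at hA ⊢
    rw [hA, h2c]
    rw [sum_div (tri G) (fun _ => (3:ℝ)), hc3]
    rw [sum_phi_lost hm]
    ring
  have hS : |S1| ≤ 10 * Q := abs_first_moment hp hm he
  have hQΨ : Q ≤ 5 * Ψ := sum_sq_dev_le hp
  have hQ0 : 0 ≤ Q := sum_nonneg fun g _ => sq_nonneg _
  have hmain : ∑ D ∈ tri G, lin G D ≤ 2 * Ψ + 3 * mu G * (5 * Ψ) / eR G * (50 * Ψ) := by
    have h1 : ∑ D ∈ tri G, lin G D ≤
        (2 - 3 * mu G * Q / eR G) * Ψ + 3 * mu G * Q / eR G * S1 := by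
      rw [hlin]; linarith [hcert, hsd1]
    have h2 : 0 ≤ 3 * mu G * Q / eR G := by positivity
    have h3 : 3 * mu G * Q / eR G * S1 ≤ 3 * mu G * (5 * Ψ) / eR G * (50 * Ψ) := by
      refine le_trans (mul_le_mul_of_nonneg_left (le_trans (le_abs_self _) hS) h2) ?_
      apply mul_le_mul _ (by linarith) (by linarith) (by positivity)
      apply div_le_div_of_nonneg_right _ he.le
      nlinarith
    nlinarith [mul_nonneg h2 hΨ0]
  calc mu G / eR G * ∑ D ∈ tri G, lin G D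
      ≤ mu G / eR G * (2 * Ψ + 3 * mu G * (5 * Ψ) / eR G * (50 * Ψ)) :=
        mul_le_mul_of_nonneg_left hmain (by positivity)
    _ = 2 * pp G + 750 * pp G ^ 2 := by rw [pp, ← hΨ]; ring

lemma good_numeric (hn : Big n) (hG : Good G) :
    mu G * kk n ^ 3 ≤ eR G ∧ 9 * kk n / eR G ≤ 1 / 100 ∧
      72000 * mu G ≤ eR G / 2 ∧ (10:ℝ) ^ 26 ≤ eR G := by
  obtain ⟨hm, he, -⟩ := good_pos hn hG
  have hlo := good_eR_lower hn hG
  have hmn := good_mu_le (G := G) he
  have hn0 := big_n_pos hn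
  have hl := hn.1
  have hl1 : (1:ℝ) ≤ lam n ^ 20 := one_le_pow₀ (by linarith)
  have hs : (10:ℝ) ^ 30 * lam n ^ 10 ≤ Real.sqrt n := by
    rw [Real.le_sqrt (by positivity) hn0.le]
    rw [mul_pow, ← pow_mul, ← pow_mul]
    exact hn.2
  have h310 : lam n ^ 3 ≤ lam n ^ 10 := pow_le_pow_right₀ (by linarith) (by norm_num)
  have h110 : (1:ℝ) ≤ lam n ^ 10 := one_le_pow₀ (by linarith)
  have hk : kk n ^ 3 = 32768 * lam n ^ 3 := by rw [kk, mul_pow]; norm_num
  have hk1 : kk n ≤ kk n ^ 3 := le_self_pow₀ (by rw [kk]; linarith) (by norm_num)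
  have h30 : (10:ℝ) ^ 30 ≤ Real.sqrt n := le_trans (le_mul_of_one_le_right (by positivity) h110) hs
  have hn30 : (10:ℝ) ^ 30 ≤ (n : ℝ) :=
    le_trans (le_trans (by norm_num) (le_mul_of_one_le_right (by positivity) hl1)) hn.2
  refine ⟨?_, ?_, ?_, ?_⟩
  · calc mu G * kk n ^ 3 ≤ (n : ℝ) * Real.sqrt n :=
          mul_le_mul hmn (by rw [hk]; nlinarith) (by rw [hk]; positivity) hn0.le
      _ ≤ eR G := hlo
  · rw [div_le_iff₀ he]
    have hk2 : 1000 * kk n ≤ Real.sqrt n := by rw [hk] at hk1; nlinarith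
    nlinarith [mul_le_mul (by linarith : (1:ℝ) ≤ (n:ℝ)) hk2 (by rw [kk]; positivity) hn0.le]
  · nlinarith
  · nlinarith

set_option maxHeartbeats 1000000 in
/-- The change of the dispersion potential in one step. -/
lemma step_bound (hp : PsiFacts) (hn : Big n) (hG : Good G) {D : Finset (Fin n)}
    (hD : D ∈ tri G) :
    |pp (rem G D) - pp G - mu G / eR G * lin G D| ≤ mu G / eR G * (14000 * kk n / mu G) ∧
    |pp (rem G D) - pp G| ≤ mu G / eR G * (70 * kk n ^ 2) := by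
  obtain ⟨-, hmu2, ht, hstep⟩ := stepFacts n G hn hG
  obtain ⟨hs3, hsu, ha0, ha, he3, -, hmu', -⟩ := hstep D hD
  obtain ⟨hm, he, -⟩ := good_pos hn hG
  obtain ⟨hK3, hεs, -, -⟩ := good_numeric hn hG
  have _ := hmu2
  have hK : 320 ≤ kk n := by rw [kk]; linarith [hn.1]
  set K := kk n with hKdef
  set a := ((sdeg G D : ℝ) - 2) / tR G with hadef
  set c := 3 / eR G with hcdef
  set ε := 9 * K / eR G with hεdef
  have hc0 : 0 ≤ c := by positivity
  have hcε : c ≤ ε := div_le_div_of_nonneg_right (by linarith) he.le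
  have hε0 : 0 ≤ ε := le_trans hc0 hcε
  obtain ⟨hr1, hr2, hr3⟩ := rho_bounds ha0 ha hc0 hcε hεs
  obtain ⟨het1, het2⟩ := eta_bounds ha0 ha hc0 hcε hεs
  set ρ := (1 - c) / (1 - a) with hρdef
  set η := (1 - a) / (1 - c) ^ 2 - 1 with hηdef
  set μ := mu G with hμdef
  set e := eR G with hedef
  set Ψ := ∑ g ∈ G, psi (xv G g) with hΨ
  set S1 := ∑ g ∈ G, xv G g * phi (xv G g) with hS1
  set Dp := ∑ g ∈ rem G D, psi (xv (rem G D) g) - Ψ with hDp
  clear_value Dp S1 Ψ η ρ ε c a e μ K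
  have hm0 : 0 < mu G := hμdef ▸ hm
  have he0 : 0 < eR G := hedef ▸ he
  have ha1 : 0 < 1 - a := by linarith
  have hc1 : 0 < 1 - c := by linarith
  have hxK : ∀ g ∈ G, xv G g ≤ K := fun g hg => by
    simp only [xv]; rw [← hμdef, div_le_iff₀ hm, hμdef, hKdef]; exact hG.2.1 g hg
  have hsub : rem G D ⊆ G := rem_subset G D
  -- per edge
  have hedge : ∀ g ∈ rem G D,
      |psi (xv (rem G D) g) - psi (xv G g)
        - phi (xv G g) * (xv G g * (a - c) - (lost G g D : ℝ) / μ)| ≤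
      100 * K ^ 2 * ε ^ 2 + (lost G g D : ℝ) * (50 / μ ^ 2 + 20 * K * ε / μ) := by
    intro g hg
    have hgD : g ∉ sides D := (mem_sdiff.1 hg).2
    have h2 : ((lost G g D : ℕ) : ℝ) ≤ 2 := by exact_mod_cast lost_le_two hD hgD
    have hdr : (deg (rem G D) g : ℝ) + (lost G g D : ℝ) = (deg G g : ℝ) := by
      exact_mod_cast deg_rem_add_lost G g D
    have heq : xv (rem G D) g = (xv G g * μ - (lost G g D : ℝ)) * ρ / μ := by
      simp only [xv]
      rw [hmu', ← hμdef, div_mul_cancel₀ _ hm.ne', hρdef, ← hdr]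
      field_simp
      ring
    rw [heq]
    exact edge_rem hp (xv_nonneg g hm0) (hxK g (hsub hg)) (by linarith)
      (Nat.cast_nonneg _) h2 hm hε0 hr1 hr2 hr3
  have hsumd : ∑ g ∈ rem G D, (lost G g D : ℝ) ≤ 6 * K * μ := by
    have := sum_lost_edges hD
    have h' : ∑ g ∈ rem G D, (lost G g D : ℝ) + 6 = 2 * (sdeg G D : ℝ) := by
      exact_mod_cast this
    linarith
  have hKμ0 : 0 ≤ K / μ := by positivity
  have hKμ : K ^ 3 / e ≤ K / μ * (1 / K) := by
    rw [div_mul_div_comm, div_le_div_iff₀ he (by positivity)]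
    nlinarith [mul_le_mul_of_nonneg_left hK3 (by linarith : (0:ℝ) ≤ K)]
  have hK3μ : K ^ 3 / e ≤ K / μ :=
    le_trans hKμ (mul_le_of_le_one_right (by positivity) (by rw [div_le_one]; linarith; linarith))
  have hK4μ : K ^ 4 / e ≤ K / μ := by
    have := mul_le_mul_of_nonneg_left hKμ (by linarith : (0:ℝ) ≤ K)
    calc K ^ 4 / e = K * (K ^ 3 / e) := by ring
      _ ≤ K * (K / μ * (1 / K)) := this
      _ = K / μ := by field_simp
  have hR1 : |∑ g ∈ rem G D, (psi (xv (rem G D) g) - psi (xv G g)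
        - phi (xv G g) * (xv G g * (a - c) - (lost G g D : ℝ) / μ))| ≤ 9500 * (K / μ) := by
    refine le_trans (abs_sum_le_sum_abs _ _) (le_trans (sum_le_sum hedge) ?_)
    rw [sum_add_distrib, sum_const, nsmul_eq_mul, ← sum_mul]
    have hcard : ((rem G D).card : ℝ) ≤ e := by
      have : ((rem G D).card : ℝ) = e - 3 := he3
      linarith
    have h1 : ((rem G D).card : ℝ) * (100 * K ^ 2 * ε ^ 2) ≤ 8100 * (K ^ 4 / e) := by
      refine le_trans (mul_le_mul_of_nonneg_right hcard (by positivity)) (le_of_eq ?_)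
      rw [hεdef]; field_simp; ring
    have h2 : (∑ g ∈ rem G D, (lost G g D : ℝ)) * (50 / μ ^ 2 + 20 * K * ε / μ) ≤
        300 * (K / μ) + 1080 * (K ^ 3 / e) := by
      refine le_trans (mul_le_mul_of_nonneg_right hsumd (by positivity)) (le_of_eq ?_)
      rw [hεdef]; field_simp; ring
    linarith
  have hphD : ∀ g ∈ sides D, |xv G g * phi (xv G g)| ≤ 10 * K ^ 2 := by
    intro g hg
    have hgG := (mem_tri.1 hD).2 hg
    have h0 := xv_nonneg g hm0
    have h1 := hxK g hgG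
    rw [abs_mul, abs_of_nonneg h0]
    have : |phi (xv G g)| ≤ 10 * K :=
      le_trans (hp.2.2.1 _) (by have : |xv G g - 1| ≤ K := abs_le.2 ⟨by linarith, by linarith⟩; linarith)
    nlinarith [mul_le_mul h1 this (abs_nonneg _) (by linarith)]
  have hac : |a - c| ≤ ε := abs_le.2 ⟨by linarith, by linarith⟩
  -- first order identity
  set F0 := -(∑ g ∈ sides D, psi (xv G g)) + (a - c) * S1
    - (∑ g ∈ rem G D, phi (xv G g) * (lost G g D : ℝ)) / μ with hF0
  have hsplit : ∀ f : Finset (Fin n) → ℝ,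
      ∑ g ∈ rem G D, f g + ∑ g ∈ sides D, f g = ∑ g ∈ G, f g := fun f =>
    sum_sdiff (mem_tri.1 hD).2
  have hDpF : |Dp - F0| ≤ 10000 * (K / μ) := by
    have e1 := hsplit (fun g => psi (xv G g))
    have e2 := hsplit (fun g => xv G g * phi (xv G g))
    have heq : Dp - F0 = ∑ g ∈ rem G D, (psi (xv (rem G D) g) - psi (xv G g)
        - phi (xv G g) * (xv G g * (a - c) - (lost G g D : ℝ) / μ))
        + (-((a - c) * ∑ g ∈ sides D, xv G g * phi (xv G g))) := by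
      have e3 : ∑ g ∈ rem G D, (psi (xv (rem G D) g) - psi (xv G g)
          - phi (xv G g) * (xv G g * (a - c) - (lost G g D : ℝ) / μ)) =
          ∑ g ∈ rem G D, psi (xv (rem G D) g) - ∑ g ∈ rem G D, psi (xv G g)
          - ((a - c) * ∑ g ∈ rem G D, xv G g * phi (xv G g)
            - (∑ g ∈ rem G D, phi (xv G g) * (lost G g D : ℝ)) / μ) := by
        rw [mul_sum, sum_div, ← sum_sub_distrib, ← sum_sub_distrib, ← sum_sub_distrib]
        exact sum_congr rfl fun g _ => by ring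
      rw [e3, hDp, hF0, hΨ, hS1, ← e1, ← e2]
      ring
    rw [heq]
    refine le_trans (abs_add_le _ _) ?_
    rw [abs_neg, abs_mul]
    have h3 : |∑ g ∈ sides D, xv G g * phi (xv G g)| ≤ 30 * K ^ 2 := by
      refine le_trans (abs_sum_le_sum_abs _ _) (le_trans (sum_le_sum hphD) (le_of_eq ?_))
      rw [sum_const, card_sides (mem_tri.1 hD).1, nsmul_eq_mul]; push_cast; ring
    have h4 : |a - c| * |∑ g ∈ sides D, xv G g * phi (xv G g)| ≤ 270 * (K ^ 3 / e) := by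
      refine le_trans (mul_le_mul hac h3 (abs_nonneg _) hε0) (le_of_eq ?_)
      rw [hεdef]; ring
    linarith
  -- sizes
  have hΨ0 : 0 ≤ Ψ := hΨ ▸ sum_nonneg fun g _ => psi_nonneg_of hp _
  have hΨB : Ψ * μ ≤ bb n * e := by
    have := hG.2.2.1
    rw [pp, ← hΨ, ← hμdef, ← hedef, div_mul_eq_mul_div, div_le_iff₀ he] at this
    linarith
  have hBL : 1000 * bb n ≤ K * μ := by
    have h1 : ll n ≤ μ := hμdef ▸ hG.1
    have h34 : lam n ^ 3 ≤ lam n ^ 4 := pow_le_pow_right₀ (by linarith [hn.1]) (by norm_num)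
    have h30 : 0 ≤ lam n ^ 3 := pow_nonneg (lam_pos hn).le 3
    have h2 : 1000 * bb n ≤ ll n := by
      simp only [bb, ll]; nlinarith
    nlinarith
  have hεΨ : ε * Ψ ≤ K ^ 2 / 100 := by
    rw [hεdef, div_mul_eq_mul_div, div_le_iff₀ he]
    have : 9 * K * Ψ * μ ≤ K ^ 2 / 100 * e * μ := by
      nlinarith [mul_le_mul_of_nonneg_left hΨB (by linarith : (0:ℝ) ≤ 9 * K),
        mul_le_mul_of_nonneg_left hBL (by positivity : (0:ℝ) ≤ K * e)]
    exact le_of_mul_le_mul_right this hm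
  have hS1b : |S1| ≤ 50 * Ψ := by
    have h1 := abs_first_moment hp hm0 he0
    have h2 := sum_sq_dev_le (G := G) hp
    rw [← hS1] at h1
    linarith
  have hF0b : |F0| ≤ 65 * K ^ 2 := by
    rw [hF0, sub_eq_add_neg]
    refine le_trans (abs_add_three _ _ _) ?_
    rw [abs_neg, abs_neg, abs_mul, abs_div, abs_of_pos hm]
    have t1 : |∑ g ∈ sides D, psi (xv G g)| ≤ 4 * K ^ 2 := by
      rw [abs_of_nonneg (sum_nonneg fun g _ => psi_nonneg_of hp _)]
      have hb : ∀ g ∈ sides D, psi (xv G g) ≤ 11 / 10 * K ^ 2 := fun g hg => by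
        have h0 := xv_nonneg g hm0
        have h1 := hxK g ((mem_tri.1 hD).2 hg)
        have := hp.2.1 (xv G g)
        nlinarith
      refine le_trans (sum_le_sum hb) ?_
      rw [sum_const, card_sides (mem_tri.1 hD).1, nsmul_eq_mul]
      push_cast
      nlinarith
    have t2 : |a - c| * |S1| ≤ K ^ 2 / 2 := by
      refine le_trans (mul_le_mul hac hS1b (abs_nonneg _) hε0) ?_
      have hh : ε * (50 * Ψ) = 50 * (ε * Ψ) := by ring
      linarith
    have t3 : |∑ g ∈ rem G D, phi (xv G g) * (lost G g D : ℝ)| / μ ≤ 60 * K ^ 2 := by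
      rw [div_le_iff₀ hm]
      refine le_trans (abs_sum_le_sum_abs _ _) ?_
      have hb : ∀ g ∈ rem G D, |phi (xv G g) * (lost G g D : ℝ)| ≤
          10 * K * (lost G g D : ℝ) := fun g hg => by
        have h0 := xv_nonneg g hm0
        have h1 := hxK g (hsub hg)
        rw [abs_mul, Nat.abs_cast]
        refine mul_le_mul_of_nonneg_right ?_ (Nat.cast_nonneg _)
        have : |xv G g - 1| ≤ K := abs_le.2 ⟨by linarith, by linarith⟩
        linarith [hp.2.2.1 (xv G g)]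
      refine le_trans (sum_le_sum hb) ?_
      rw [← mul_sum]
      refine le_trans (mul_le_mul_of_nonneg_left hsumd (by linarith)) (le_of_eq ?_)
      ring
    linarith [sq_nonneg K]
  have hKμ1 : 10000 * (K / μ) ≤ K ^ 2 := by
    rw [← mul_div_assoc, div_le_iff₀ hm]
    have h17 : (10:ℝ) ^ 17 ≤ μ := le_trans (ll_ge hn) (hμdef ▸ hG.1)
    have hk : K ≤ K ^ 2 := le_self_pow₀ (by linarith) (by norm_num)
    have h4 : 10000 * K ≤ μ * K := mul_le_mul_of_nonneg_right (by linarith) (by linarith)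
    have h5 : μ * K ≤ μ * K ^ 2 := mul_le_mul_of_nonneg_left hk hm.le
    linarith
  have hDpb : |Dp| ≤ 66 * K ^ 2 := by
    have := abs_sub_abs_le_abs_sub Dp F0
    linarith
  -- the potential
  have hpp : pp (rem G D) - pp G = μ / e * (η * Ψ + Dp + η * Dp) := by
    rw [pp, pp, he3, hmu', ← hμdef, ← hedef, ← hΨ, hηdef, hDp]
    have hec : e - 3 = e * (1 - c) := by rw [hcdef]; field_simp
    rw [hec]
    field_simp
    ring
  have hlin : lin G D = (2 * c - a) * Ψ + F0 := by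
    simp only [lin, ← hΨ, ← hS1, ← hμdef, ← hedef, ← hadef, ← hcdef, hF0]
  have hηD : |η * Dp| ≤ 2000 * (K ^ 3 / e) := by
    rw [abs_mul]
    refine le_trans (mul_le_mul het1 hDpb (abs_nonneg _) (by linarith)) ?_
    rw [hεdef]
    have : 0 ≤ K ^ 3 / e := by positivity
    calc 3 * (9 * K / e) * (66 * K ^ 2) = 1782 * (K ^ 3 / e) := by ring
      _ ≤ _ := by linarith
  have hεεΨ : 8 * ε ^ 2 * Ψ ≤ K ^ 3 / e := by
    calc 8 * ε ^ 2 * Ψ = 8 * ε * (ε * Ψ) := by ring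
      _ ≤ 8 * ε * (K ^ 2 / 100) := mul_le_mul_of_nonneg_left hεΨ (by linarith)
      _ ≤ K ^ 3 / e := by
        rw [hεdef]
        have : 0 ≤ K ^ 3 / e := by positivity
        calc 8 * (9 * K / e) * (K ^ 2 / 100) = (72 / 100) * (K ^ 3 / e) := by ring
          _ ≤ _ := by linarith
  constructor
  · rw [hpp, hlin, ← mul_sub, abs_mul, abs_of_nonneg (by positivity : 0 ≤ μ / e)]
    refine mul_le_mul_of_nonneg_left ?_ (by positivity)
    have heq : η * Ψ + Dp + η * Dp - ((2 * c - a) * Ψ + F0) =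
        (η - (2 * c - a)) * Ψ + (Dp - F0) + η * Dp := by ring
    rw [heq]
    refine le_trans (abs_add_three _ _ _) ?_
    rw [abs_mul, abs_of_nonneg hΨ0]
    have := mul_le_mul_of_nonneg_right het2 hΨ0
    rw [mul_div_assoc]
    linarith
  · rw [hpp, abs_mul, abs_of_nonneg (by positivity : 0 ≤ μ / e)]
    refine mul_le_mul_of_nonneg_left ?_ (by positivity)
    refine le_trans (abs_add_three _ _ _) ?_
    rw [abs_mul η Ψ, abs_of_nonneg hΨ0]
    have h1 := mul_le_mul_of_nonneg_right het1 hΨ0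
    have h2 : 2000 * (K ^ 3 / e) ≤ 2000 * (K / μ) := by linarith
    linarith

lemma exp_le_quad {z : ℝ} (h : |z| ≤ 1) : Real.exp z ≤ 1 + z + z ^ 2 := by
  have := (abs_le.1 (Real.abs_exp_sub_one_sub_id_le h)).2
  linarith

theorem pDrift (hc : CertQ) (hp : PsiFacts) : PDrift := by
  intro n G hn hG
  obtain ⟨heS, hmu2, ht, hstep⟩ := stepFacts n G hn hG
  obtain ⟨hm, he, -⟩ := good_pos hn hG
  obtain ⟨hK3, hεs, h72, he26⟩ := good_numeric hn hG
  have _ := heS
  have _ := hK3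
  set L := lam n with hLdef
  have hL : 10 ≤ L := hn.1
  set K := kk n with hKdef
  have hKL : K = 32 * L := rfl
  set μ := mu G with hμdef
  set e := eR G with hedef
  set z : Finset (Fin n) → ℝ := fun D =>
    (pp (rem G D) - pp G) / L ^ 2 - 10 ^ 12 * (3 / e) with hz
  have hexp : ∀ D ∈ tri G,
      Real.exp (lp (rem G D)) ≤ Real.exp (lp G) * Real.exp (z D) := by
    intro D hD
    obtain ⟨-, -, -, -, he3, -, -, -⟩ := hstep D hD
    rw [← Real.exp_add]
    apply Real.exp_le_exp.2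
    simp only [lp, hz, ← hLdef, ← hedef]
    rw [he3]
    have hlog : Real.log (e - 3) - Real.log e ≤ -(3 / e) := by
      rw [← Real.log_div (by linarith) he.ne']
      refine le_trans (Real.log_le_sub_one_of_pos (div_pos (by linarith) he)) (le_of_eq ?_)
      field_simp
      ring
    have hsub : (pp (rem G D) - pp G) / L ^ 2 = pp (rem G D) / L ^ 2 - pp G / L ^ 2 :=
      sub_div _ _ _
    linarith
  have hzb : ∀ D ∈ tri G, |z D| ≤ 1 ∧
      z D ≤ μ / e * lin G D / L ^ 2 + (14000 * K / e) / L ^ 2 - 10 ^ 12 * (3 / e) ∧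
      z D ^ 2 ≤ 2 * (71680 * μ / e) ^ 2 + 2 * (10 ^ 12 * (3 / e)) ^ 2 := by
    intro D hD
    obtain ⟨h1, h2⟩ := step_bound hp hn hG hD
    have hL2 : (0:ℝ) < L ^ 2 := by positivity
    have hd : |(pp (rem G D) - pp G) / L ^ 2| ≤ 71680 * μ / e := by
      rw [abs_div, abs_of_pos hL2, div_le_iff₀ hL2]
      refine le_trans h2 (le_of_eq ?_)
      rw [← hμdef, ← hedef, ← hKdef, hKL]; ring
    refine ⟨?_, ?_, ?_⟩
    · simp only [hz]
      refine le_trans (abs_sub _ _) ?_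
      have e1 : 71680 * μ / e ≤ 1 / 2 := by
        rw [div_le_iff₀ he]; linarith
      have e2 : |10 ^ 12 * (3 / e)| ≤ 1 / 2 := by
        rw [abs_of_nonneg (by positivity), ← mul_div_assoc, div_le_iff₀ he]; linarith
      linarith
    · simp only [hz]
      have e3 : μ / e * (14000 * K / μ) = 14000 * K / e := by field_simp
      have := (abs_le.1 h1).2
      rw [← hμdef, ← hedef, ← hKdef, e3] at this
      have h4 : (pp (rem G D) - pp G) / L ^ 2 ≤ (μ / e * lin G D + 14000 * K / e) / L ^ 2 :=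
        div_le_div_of_nonneg_right (by linarith) hL2.le
      rw [add_div] at h4
      linarith
    · simp only [hz]
      set A := (pp (rem G D) - pp G) / L ^ 2
      set B := (10:ℝ) ^ 12 * (3 / e)
      have : A ^ 2 ≤ (71680 * μ / e) ^ 2 := by
        rw [← sq_abs A]; exact pow_le_pow_left₀ (abs_nonneg _) hd 2
      nlinarith [sq_nonneg (A + B)]
  have hsum : ∑ D ∈ tri G, (z D + z D ^ 2) ≤ 0 := by
    have h1 : ∑ D ∈ tri G, (z D + z D ^ 2) ≤ ∑ D ∈ tri G,
        (μ / e * lin G D / L ^ 2 + (14000 * K / e) / L ^ 2 - 10 ^ 12 * (3 / e)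
          + (2 * (71680 * μ / e) ^ 2 + 2 * (10 ^ 12 * (3 / e)) ^ 2)) :=
      sum_le_sum fun D hD => by
        obtain ⟨-, a1, a2⟩ := hzb D hD
        linarith
    refine le_trans h1 ?_
    rw [sum_add_distrib, sum_sub_distrib, sum_add_distrib, ← sum_div, ← mul_sum, sum_const,
      sum_const, sum_const, nsmul_eq_mul, nsmul_eq_mul, nsmul_eq_mul]
    change μ / e * (∑ D ∈ tri G, lin G D) / L ^ 2 + tR G * (14000 * K / e / L ^ 2)
      - tR G * (10 ^ 12 * (3 / e))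
      + tR G * (2 * (71680 * μ / e) ^ 2 + 2 * (10 ^ 12 * (3 / e)) ^ 2) ≤ 0
    have hT : tR G = μ * e / 3 := by rw [hμdef, hedef, mu_mul_eR he]; ring
    have hlin := sum_lin_le hc hp hm he ht
    rw [← hμdef, ← hedef] at hlin
    have hP0 : 0 ≤ pp G := by
      rw [pp]; exact mul_nonneg (by positivity) (sum_nonneg fun g _ => psi_nonneg_of hp _)
    have hPB := hG.2.2.1
    have t1 : μ / e * (∑ D ∈ tri G, lin G D) / L ^ 2 ≤ 10 ^ 11 * μ := by
      rw [div_le_iff₀ (by positivity)]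
      refine le_trans hlin ?_
      have hLμ : 10 ^ 17 * L ^ 4 ≤ μ := hG.1
      have hB : pp G ≤ 3 * 10 ^ 12 * L ^ 3 := hPB
      have h5 : pp G ^ 2 ≤ (3 * 10 ^ 12 * L ^ 3) ^ 2 := pow_le_pow_left₀ hP0 hB 2
      have h6 : L ^ 3 ≤ L ^ 6 := pow_le_pow_right₀ (by linarith) (by norm_num)
      have h7 : 0 ≤ L ^ 6 := by positivity
      nlinarith [mul_le_mul_of_nonneg_left hLμ (by positivity : (0:ℝ) ≤ L ^ 2)]
    have t2 : tR G * (14000 * K / e / L ^ 2) ≤ 20000 * μ := by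
      rw [hT, hKL]
      have : μ * e / 3 * (14000 * (32 * L) / e / L ^ 2) = (448000 / 3) * μ * (1 / L) := by
        field_simp; ring
      rw [this]
      have : 1 / L ≤ 1 / 10 := one_div_le_one_div_of_le (by norm_num) hL
      nlinarith
    have t3 : tR G * (10 ^ 12 * (3 / e)) = 10 ^ 12 * μ := by rw [hT]; field_simp
    have t4 : tR G * (2 * (71680 * μ / e) ^ 2 + 2 * (10 ^ 12 * (3 / e)) ^ 2) ≤
        2 * 10 ^ 11 * μ := by
      rw [hT]
      have : μ * e / 3 * (2 * (71680 * μ / e) ^ 2 + 2 * (10 ^ 12 * (3 / e)) ^ 2) =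
          μ * ((10276044800 / 3) * (μ ^ 2 / e) + 6 * 10 ^ 24 / e) := by
        field_simp; ring
      rw [this]
      have a1 : μ ^ 2 / e ≤ 16 := by rw [div_le_iff₀ he]; exact hmu2
      have a2 : 6 * 10 ^ 24 / e ≤ (1:ℝ) := by rw [div_le_iff₀ he]; linarith
      nlinarith
    linarith
  calc ∑ D ∈ tri G, Real.exp (lp (rem G D))
      ≤ ∑ D ∈ tri G, Real.exp (lp G) * (1 + (z D + z D ^ 2)) := by
        refine sum_le_sum fun D hD => le_trans (hexp D hD) ?_
        exact mul_le_mul_of_nonneg_left (by linarith [exp_le_quad (hzb D hD).1])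
          (Real.exp_pos _).le
    _ = tR G * Real.exp (lp G) + Real.exp (lp G) * ∑ D ∈ tri G, (z D + z D ^ 2) := by
        rw [← mul_sum, sum_add_distrib, sum_const, nsmul_eq_mul, mul_one, mul_add, mul_comm]
        rfl
    _ ≤ tR G * Real.exp (lp G) := by
        nlinarith [mul_nonpos_of_nonneg_of_nonpos (Real.exp_pos (lp G)).le hsum]

end Good

end Vale.Agent.P046
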