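import Vale.Agent.P046.Interface

/-!
P046: elementary facts about the dispersion weight `psi` and its derivative.
-/

namespace Vale.Agent.P046

/-- The denominator of `psi` at `x = 1 + r`. -/
def pden (r : ℝ) : ℝ := 15 * r ^ 2 + 3 * r + 1

lemma pden_lb (r : ℝ) : 7 * r ^ 2 + 7 / 10 ≤ pden r := by
  unfold pden
  nlinarith [sq_nonneg (r + 3 / 16)]

lemma pden_pos (r : ℝ) : 0 < pden r := by
  have := pden_lb r
  nlinarith [sq_nonneg r]

lemma psi_eq (r : ℝ) : psi (1 + r) = r ^ 2 * (4 * r ^ 2 + 2 * r + 1) / pden r := by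
  simp only [psi, pden, add_sub_cancel_left]

lemma phi_eq (r : ℝ) :
    phi (1 + r) = r * (120 * r ^ 4 + 66 * r ^ 3 + 28 * r ^ 2 + 9 * r + 2) / pden r ^ 2 := by
  simp only [phi, pden, add_sub_cancel_left]
  congr 1
  ring

lemma psi_lower (x : ℝ) : (x - 1) ^ 2 / 5 ≤ psi x := by
  obtain ⟨r, rfl⟩ : ∃ r, x = 1 + r := ⟨x - 1, by ring⟩
  rw [psi_eq, add_sub_cancel_left, le_div_iff₀ (pden_pos r)]
  have h : pden r ≤ 5 * (4 * r ^ 2 + 2 * r + 1) := by
    unfold pden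
    nlinarith [sq_nonneg (r + 7 / 10)]
  calc r ^ 2 / 5 * pden r ≤ r ^ 2 / 5 * (5 * (4 * r ^ 2 + 2 * r + 1)) :=
        mul_le_mul_of_nonneg_left h (by positivity)
    _ = _ := by ring

lemma psi_nonneg (x : ℝ) : 0 ≤ psi x := le_trans (by positivity) (psi_lower x)

lemma psi_upper (x : ℝ) : psi x ≤ 11 / 10 * (x - 1) ^ 2 := by
  obtain ⟨r, rfl⟩ : ∃ r, x = 1 + r := ⟨x - 1, by ring⟩
  rw [psi_eq, add_sub_cancel_left, div_le_iff₀ (pden_pos r)]
  have h : 4 * r ^ 2 + 2 * r + 1 ≤ 11 / 10 * pden r := by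
    unfold pden
    nlinarith [sq_nonneg (r + 13 / 250)]
  calc r ^ 2 * (4 * r ^ 2 + 2 * r + 1) ≤ r ^ 2 * (11 / 10 * pden r) :=
        mul_le_mul_of_nonneg_left h (by positivity)
    _ = _ := by ring

lemma phi_bound (x : ℝ) : |phi x| ≤ 10 * |x - 1| := by
  obtain ⟨r, rfl⟩ : ∃ r, x = 1 + r := ⟨x - 1, by ring⟩
  have hD := pden_pos r
  rw [phi_eq, add_sub_cancel_left, abs_div, abs_mul, abs_of_pos (pow_pos hD 2),
    div_le_iff₀ (pow_pos hD 2)]
  have h : |120 * r ^ 4 + 66 * r ^ 3 + 28 * r ^ 2 + 9 * r + 2| ≤ 10 * pden r ^ 2 := by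
    unfold pden
    rw [abs_le]
    constructor <;>
      nlinarith [sq_nonneg (r ^ 2), sq_nonneg (r * (r + 1 / 4)), sq_nonneg (r + 1 / 10),
        sq_nonneg r, sq_nonneg (r + 1 / 5)]
  calc |r| * |120 * r ^ 4 + 66 * r ^ 3 + 28 * r ^ 2 + 9 * r + 2|
      ≤ |r| * (10 * pden r ^ 2) := mul_le_mul_of_nonneg_left h (abs_nonneg r)
    _ = _ := by ring

lemma phi_linear (x : ℝ) : |x * phi x - 2 * (x - 1)| ≤ 10 * (x - 1) ^ 2 := by
  obtain ⟨r, rfl⟩ : ∃ r, x = 1 + r := ⟨x - 1, by ring⟩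
  have hD := pden_pos r
  have e : (1 + r) * phi (1 + r) - 2 * r
      = r ^ 2 * (120 * r ^ 4 - 264 * r ^ 3 - 86 * r ^ 2 - 41 * r - 1) / pden r ^ 2 := by
    rw [phi_eq, eq_div_iff (pow_pos hD 2).ne', sub_mul, mul_assoc,
      div_mul_cancel₀ _ (pow_pos hD 2).ne']
    simp only [pden]
    ring
  rw [add_sub_cancel_left, e, abs_div, abs_mul, abs_of_pos (pow_pos hD 2),
    abs_of_nonneg (sq_nonneg r), div_le_iff₀ (pow_pos hD 2)]
  have h : |120 * r ^ 4 - 264 * r ^ 3 - 86 * r ^ 2 - 41 * r - 1| ≤ 10 * pden r ^ 2 := by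
    unfold pden
    rw [abs_le]
    constructor <;>
      nlinarith [sq_nonneg (r ^ 2), sq_nonneg (r * (r + 1 / 4)), sq_nonneg (r + 1 / 10),
        sq_nonneg r, sq_nonneg (r + 1 / 5)]
  calc r ^ 2 * |120 * r ^ 4 - 264 * r ^ 3 - 86 * r ^ 2 - 41 * r - 1|
      ≤ r ^ 2 * (10 * pden r ^ 2) := mul_le_mul_of_nonneg_left h (sq_nonneg r)
    _ = _ := by ring

/-- The second derivative of `psi`. -/
noncomputable def psiTwo (x : ℝ) : ℝ :=
  (1800 * (x - 1) ^ 6 + 1080 * (x - 1) ^ 5 + 576 * (x - 1) ^ 4 + 78 * (x - 1) ^ 3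
    - 6 * (x - 1) ^ 2 + 12 * (x - 1) + 2) / pden (x - 1) ^ 3

lemma hasDerivAt_psi (x : ℝ) : HasDerivAt psi (phi x) x := by
  have h1 : HasDerivAt (fun x : ℝ => x - 1) 1 x := (hasDerivAt_id x).sub_const 1
  have hn := (h1.fun_pow 2).fun_mul
    (((((h1.fun_pow 2).const_mul 4).fun_add (h1.const_mul 2))).add_const 1)
  have hd := (((h1.fun_pow 2).const_mul 15).fun_add (h1.const_mul 3)).add_const 1
  have := hn.fun_div hd (pden_pos (x - 1)).ne'
  refine this.congr_deriv ?_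
  unfold phi
  push_cast
  ring

lemma hasDerivAt_phi (x : ℝ) : HasDerivAt phi (psiTwo x) x := by
  have h1 : HasDerivAt (fun x : ℝ => x - 1) 1 x := (hasDerivAt_id x).sub_const 1
  have hn := h1.fun_mul ((((((h1.fun_pow 4).const_mul 120).fun_add
    ((h1.fun_pow 3).const_mul 66)).fun_add ((h1.fun_pow 2).const_mul 28)).fun_add
    (h1.const_mul 9)).add_const 2)
  have hd := ((((h1.fun_pow 2).const_mul 15).fun_add (h1.const_mul 3)).add_const 1).fun_pow 2
  have := hn.fun_div hd (pow_pos (pden_pos (x - 1)) 2).ne'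
  have e : phi = fun x => (x - 1) * (120 * (x - 1) ^ 4 + 66 * (x - 1) ^ 3 + 28 * (x - 1) ^ 2
      + 9 * (x - 1) + 2) / (15 * (x - 1) ^ 2 + 3 * (x - 1) + 1) ^ 2 := by
    funext y
    obtain ⟨r, rfl⟩ : ∃ r, y = 1 + r := ⟨y - 1, by ring⟩
    rw [phi_eq]
    simp only [pden, add_sub_cancel_left]
  rw [e]
  refine this.congr_deriv ?_
  have hp := (pden_pos (x - 1)).ne'
  simp only [psiTwo, pden] at hp ⊢
  rw [div_eq_div_iff (by positivity) (by positivity)]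
  push_cast
  ring

lemma psiTwo_bound (x : ℝ) : |psiTwo x| ≤ 10 := by
  obtain ⟨r, hr⟩ : ∃ r, x - 1 = r := ⟨_, rfl⟩
  have hD := pden_pos r
  simp only [psiTwo, hr]
  rw [abs_div, abs_of_pos (pow_pos hD 3), div_le_iff₀ (pow_pos hD 3)]
  have h3 : (7 * r ^ 2 + 7 / 10) ^ 3 ≤ pden r ^ 3 :=
    pow_le_pow_left₀ (by positivity) (pden_lb r) 3
  rw [abs_le]
  constructor <;>
    nlinarith [h3, mul_nonneg (sq_nonneg (r ^ 2)) (sq_nonneg (r - 27 / 50)),
      mul_nonneg (sq_nonneg (r ^ 2)) (sq_nonneg (r + 27 / 50)),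
      mul_nonneg (sq_nonneg r) (sq_nonneg (r - 13 / 10)),
      mul_nonneg (sq_nonneg r) (sq_nonneg (r + 13 / 10)),
      sq_nonneg (r - 4 / 25), sq_nonneg (r + 4 / 25), sq_nonneg r, sq_nonneg (r ^ 2),
      sq_nonneg (r ^ 3)]

lemma psi_taylor (x y : ℝ) : |psi y - psi x - phi x * (y - x)| ≤ 10 * (y - x) ^ 2 := by
  have hphi : ∀ z, |phi z - phi x| ≤ 10 * |z - x| := fun z => by
    simpa [Real.norm_eq_abs] using convex_univ.norm_image_sub_le_of_norm_hasDerivWithin_le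
      (fun w _ => (hasDerivAt_phi w).hasDerivWithinAt)
      (fun w _ => by rw [Real.norm_eq_abs]; exact psiTwo_bound w) (Set.mem_univ x)
      (Set.mem_univ z)
  have h := (convex_uIcc x y).norm_image_sub_le_of_norm_hasDerivWithin_le
    (f := fun z => psi z - phi x * z) (f' := fun z => phi z - phi x * 1) (C := 10 * |y - x|)
    (fun w _ => ((hasDerivAt_psi w).fun_sub ((hasDerivAt_id w).const_mul (phi x))).hasDerivWithinAt)
    (fun w hw => by
      rw [Real.norm_eq_abs, mul_one]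
      exact (hphi w).trans (mul_le_mul_of_nonneg_left (Set.abs_sub_left_of_mem_uIcc hw)
        (by norm_num)))
    Set.left_mem_uIcc Set.right_mem_uIcc
  simp only [Real.norm_eq_abs] at h
  have e : psi y - psi x - phi x * (y - x) = (psi y - phi x * y) - (psi x - phi x * x) := by ring
  rw [e]
  refine h.trans_eq ?_
  rw [mul_assoc, ← abs_mul, abs_mul_self, sq]

theorem psiFacts : PsiFacts :=
  ⟨psi_lower, psi_upper, phi_bound, phi_linear, psi_taylor⟩

end Vale.Agent.P046
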