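import Vale.Agent.P046.Interface

/-!
P046: elementary bounds valid in a good state, and the exact effect of one step on the counts.
-/

namespace Vale.Agent.P046

open Finset

lemma deg_le_n {n : ℕ} (G : Gr n) (g : Finset (Fin n)) : deg G g ≤ n := by
  by_cases hg : g.card = 2
  · calc deg G g ≤ ((univ : Finset (Fin n)).image (fun v => insert v g)).card := by
          apply card_le_card
          intro E hE
          obtain ⟨hEt, hgE⟩ := mem_filter.1 hE
          have hEc := (mem_tri.1 hEt).1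
          obtain ⟨hsub, -⟩ := mem_sides.1 hgE
          obtain ⟨v, hv, hvg⟩ := not_subset.1 (fun h : E ⊆ g => by
            have := card_le_card h; omega)
          refine mem_image.2 ⟨v, mem_univ v, ?_⟩
          refine eq_of_subset_of_card_le (insert_subset hv hsub) ?_
          rw [card_insert_of_notMem hvg]; omega
      _ ≤ (univ : Finset (Fin n)).card := card_image_le
      _ = n := by simp
  · have : deg G g = 0 := by
      rw [deg, card_eq_zero, filter_eq_empty_iff]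
      intro E _ hE
      exact hg (mem_sides.1 hE).2
    omega

lemma three_tR_le {n : ℕ} (G : Gr n) : 3 * tR G ≤ (n : ℝ) * eR G := by
  have h := sum_deg G
  have h2 : ∑ g ∈ G, deg G g ≤ ∑ _g ∈ G, n := sum_le_sum fun g _ => deg_le_n G g
  rw [sum_const, smul_eq_mul, h] at h2
  have h3 : ((3 * (tri G).card : ℕ) : ℝ) ≤ ((G.card * n : ℕ) : ℝ) := by exact_mod_cast h2
  push_cast at h3
  simp only [tR, eR]
  linarith

lemma lam_pos {n : ℕ} (hn : Big n) : 0 < lam n := lt_of_lt_of_le (by norm_num) hn.1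

lemma ll_ge {n : ℕ} (hn : Big n) : (10 : ℝ) ^ 17 ≤ ll n := by
  have h := hn.1
  unfold ll
  nlinarith [pow_le_pow_left₀ (by norm_num : (0:ℝ) ≤ 1) (by linarith : (1:ℝ) ≤ lam n) 4]

lemma good_pos {n : ℕ} {G : Gr n} (hn : Big n) (hG : Good G) :
    0 < mu G ∧ 0 < eR G ∧ 0 < tR G := by
  have hm : 0 < mu G := lt_of_lt_of_le (lt_of_lt_of_le (by norm_num) (ll_ge hn)) hG.1
  have he0 : 0 ≤ eR G := Nat.cast_nonneg _
  have ht0 : 0 ≤ tR G := Nat.cast_nonneg _
  have he : 0 < eR G := by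
    rcases he0.lt_or_eq with h | h
    · exact h
    · rw [mu, ← h, div_zero] at hm; exact absurd hm (lt_irrefl 0)
  refine ⟨hm, he, ?_⟩
  rcases ht0.lt_or_eq with h | h
  · exact h
  · rw [mu, ← h, mul_zero, zero_div] at hm; exact absurd hm (lt_irrefl 0)

lemma mu_mul_eR {n : ℕ} {G : Gr n} (he : 0 < eR G) : mu G * eR G = 3 * tR G := by
  rw [mu, div_mul_cancel₀ _ he.ne']

lemma good_mu_le {n : ℕ} {G : Gr n} (he : 0 < eR G) : mu G ≤ (n : ℝ) := by
  rw [mu, div_le_iff₀ he]; exact three_tR_le G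

lemma big_n_pos {n : ℕ} (hn : Big n) : (0 : ℝ) < (n : ℝ) := by
  have h1 : (0:ℝ) < 10 ^ 60 * lam n ^ 20 := mul_pos (by norm_num) (pow_pos (lam_pos hn) 20)
  linarith [hn.2]

lemma good_sq_lower {n : ℕ} {G : Gr n} (hn : Big n) (hG : Good G) :
    mu G * (n : ℝ) ^ 3 ≤ 11 * eR G ^ 2 := by
  obtain ⟨hm, he, -⟩ := good_pos hn hG
  have hn0 := big_n_pos hn
  have hw := (abs_le.1 hG.2.2.2).2
  have hlog : Real.log (mu G / eR G ^ 2) ≤ Real.log (4 / (n : ℝ) ^ 3 * Real.exp 1) := by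
    rw [Real.log_mul (by positivity) (by positivity), Real.log_exp]
    simp only [ww, w0] at hw
    linarith
  have hle := (Real.log_le_log_iff (by positivity) (by positivity)).1 hlog
  rw [div_le_iff₀ (by positivity), div_mul_eq_mul_div, div_mul_eq_mul_div,
    le_div_iff₀ (by positivity)] at hle
  have he1 : Real.exp 1 ≤ 11 / 4 := by linarith [Real.exp_one_lt_d9]
  calc mu G * (n : ℝ) ^ 3 ≤ 4 * Real.exp 1 * eR G ^ 2 := hle
    _ ≤ 11 * eR G ^ 2 := by
      apply mul_le_mul_of_nonneg_right (by linarith) (by positivity)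

lemma good_eR_lower {n : ℕ} {G : Gr n} (hn : Big n) (hG : Good G) :
    (n : ℝ) * Real.sqrt n ≤ eR G := by
  obtain ⟨hm, he, -⟩ := good_pos hn hG
  have h := good_sq_lower hn hG
  have hn0 := big_n_pos hn
  have hmu : 11 ≤ mu G := le_trans (le_trans (by norm_num) (ll_ge hn)) hG.1
  have h2 : (n : ℝ) ^ 3 ≤ eR G ^ 2 := by
    nlinarith [pow_pos hn0 3]
  have h3 : ((n : ℝ) * Real.sqrt n) ^ 2 = (n : ℝ) ^ 3 := by
    rw [mul_pow, Real.sq_sqrt hn0.le]; ring
  exact pow_le_pow_iff_left₀ (by positivity) he.le (by norm_num : (2:ℕ) ≠ 0) |>.1 (h3 ▸ h2)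

lemma good_mu_sq {n : ℕ} {G : Gr n} (hn : Big n) (hG : Good G) :
    mu G ^ 2 ≤ 16 * eR G := by
  obtain ⟨hm, he, -⟩ := good_pos hn hG
  have hmn := good_mu_le he
  have h := good_sq_lower hn hG
  have hn0 := big_n_pos hn
  have h4 : mu G ^ 4 ≤ (16 * eR G) ^ 2 := by
    calc mu G ^ 4 = mu G * mu G ^ 3 := by ring
      _ ≤ mu G * (n : ℝ) ^ 3 :=
          mul_le_mul_of_nonneg_left (pow_le_pow_left₀ hm.le hmn 3) hm.le
      _ ≤ 11 * eR G ^ 2 := h
      _ ≤ (16 * eR G) ^ 2 := by nlinarith [sq_nonneg (eR G)]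
  have h5 : (mu G ^ 2) ^ 2 ≤ (16 * eR G) ^ 2 := by
    rw [← pow_mul]; exact h4
  exact pow_le_pow_iff_left₀ (by positivity) (by positivity) (by norm_num : (2:ℕ) ≠ 0) |>.1 h5

lemma kk_over_eR_small {n : ℕ} {G : Gr n} (hn : Big n) (hG : Good G) :
    10 ^ 6 * kk n ^ 4 ≤ eR G := by
  have he := good_eR_lower hn hG
  have hl := hn.1
  have hn0 := big_n_pos hn
  have h1 : (1 : ℝ) ≤ Real.sqrt n := by
    rw [Real.le_sqrt (by norm_num) hn0.le]
    nlinarith [hn.2, one_le_pow₀ (by linarith : (1:ℝ) ≤ lam n) (n := 20)]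
  have h2 : (10:ℝ) ^ 6 * kk n ^ 4 ≤ (n : ℝ) := by
    refine le_trans ?_ hn.2
    have h3 : lam n ^ 4 ≤ lam n ^ 20 :=
      pow_le_pow_right₀ (by linarith) (by norm_num)
    rw [kk, mul_pow]
    nlinarith [pow_nonneg (lam_pos hn).le 4]
  nlinarith

theorem stepFacts : StepFacts := by
  intro n G hn hG
  obtain ⟨hm, he, ht⟩ := good_pos hn hG
  refine ⟨good_eR_lower hn hG, good_mu_sq hn hG, ht, fun D hD => ?_⟩
  have hc := (mem_tri.1 hD).1
  have hs3 : (3 : ℝ) ≤ (sdeg G D : ℝ) := by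
    have : 3 ≤ sdeg G D := by
      calc 3 = ∑ _g ∈ sides D, 1 := by rw [← card_eq_sum_ones, card_sides hc]
        _ ≤ sdeg G D := sum_le_sum fun g hg => deg_pos hD hg
    exact_mod_cast this
  have hsu : (sdeg G D : ℝ) ≤ 3 * kk n * mu G := by
    rw [sdeg, Nat.cast_sum]
    calc ∑ g ∈ sides D, (deg G g : ℝ) ≤ ∑ _g ∈ sides D, kk n * mu G :=
          sum_le_sum fun g hg => hG.2.1 g ((mem_tri.1 hD).2 hg)
      _ = 3 * kk n * mu G := by rw [sum_const, card_sides hc, nsmul_eq_mul]; push_cast; ring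
  have hT : tR G = mu G * eR G / 3 := by rw [mu_mul_eR he]; ring
  have he3 : eR (rem G D) = eR G - 3 := by
    have := card_rem hD
    simp only [eR]
    rw [← this]; push_cast; ring
  have hT' : tR (rem G D) = tR G * (1 - ((sdeg G D : ℝ) - 2) / tR G) := by
    have := card_tri_rem hD
    have h' : ((tri (rem G D)).card : ℝ) + (sdeg G D : ℝ) = ((tri G).card : ℝ) + 2 := by
      exact_mod_cast this
    rw [mul_sub, mul_one, mul_div_cancel₀ _ ht.ne']
    simp only [tR]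
    linarith
  have hup : ((sdeg G D : ℝ) - 2) / tR G ≤ 9 * kk n / eR G := by
    rw [div_le_div_iff₀ ht he, hT]
    nlinarith
  have hlo : 0 ≤ ((sdeg G D : ℝ) - 2) / tR G := div_nonneg (by linarith) ht.le
  have hmu' : mu (rem G D) =
      mu G * (1 - ((sdeg G D : ℝ) - 2) / tR G) / (1 - 3 / eR G) := by
    rw [mu, mu, hT', he3]
    field_simp
  refine ⟨hs3, hsu, hlo, hup, he3, hT', hmu', ?_⟩
  have hsmall := kk_over_eR_small hn hG
  have hk : 320 ≤ kk n := by rw [kk]; linarith [hn.1]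
  have hk4 : kk n ≤ kk n ^ 4 := le_self_pow₀ (by linarith) (by norm_num)
  have hbig : 10 ^ 6 * kk n ≤ eR G := by nlinarith
  have h9 : 9 * kk n / eR G ≤ 1 / 2 := by rw [div_le_iff₀ he]; nlinarith
  have h3e : 3 / eR G < 1 := by rw [div_lt_one he]; nlinarith
  rw [hmu', le_div_iff₀ (by linarith)]
  have h3p : 0 ≤ 3 / eR G := by positivity
  nlinarith

end Vale.Agent.P046
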