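import Vale.Agent.P046.StartState

/-!
P046: the exponential potentials for the logarithm of mean codegree over squared edge count do not
increase in expectation.
-/

namespace Vale.Agent.P046

open Finset

lemma abs_log_one_sub {t : ℝ} (h0 : 0 ≤ t) (h1 : t ≤ 1 / 2) :
    |Real.log (1 - t) + t| ≤ 2 * t ^ 2 := by
  have hp : 0 < 1 - t := by linarith
  have hu := Real.log_le_sub_one_of_pos hp
  have hl := Real.one_sub_inv_le_log_of_pos hp
  have he : (1 - t)⁻¹ ≤ 1 + t + 2 * t ^ 2 := by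
    rw [inv_le_iff_one_le_mul₀ hp]; nlinarith
  rw [abs_le]
  constructor <;> nlinarith

/-- The increment of the logarithm of the potential. -/
noncomputable def winc (l σ a c : ℝ) : ℝ :=
  8 * l * (σ * (Real.log (1 - a) - 3 * Real.log (1 - c))) + Real.log (1 - c)

lemma lw_rem {n : ℕ} (σ : ℝ) (G H : Gr n) {a c : ℝ} (hl : lam n ≠ 0) (he : 0 < eR G)
    (hmu : 0 < mu G) (ha : 0 < 1 - a) (hc : 0 < 1 - c) (hee : eR H = eR G * (1 - c))
    (hmm : mu H = mu G * (1 - a) / (1 - c)) :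
    lw σ H = lw σ G + winc (lam n) σ a c := by
  simp only [lw, ww, winc, hmm, hee]
  rw [Real.log_div (div_ne_zero (mul_ne_zero hmu.ne' ha.ne') hc.ne')
      (pow_ne_zero 2 (mul_ne_zero he.ne' hc.ne')),
    Real.log_div (mul_ne_zero hmu.ne' ha.ne') hc.ne',
    Real.log_mul hmu.ne' ha.ne', Real.log_pow, Real.log_mul he.ne' hc.ne',
    Real.log_div hmu.ne' (pow_ne_zero 2 he.ne'), Real.log_pow]
  field_simp
  push_cast
  ring

lemma winc_bounds {l σ a c k : ℝ} (hσ : σ = 1 ∨ σ = -1) (hl : 1 ≤ l) (h0 : 0 ≤ a)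
    (h1 : a ≤ 9 * k) (hc0 : 0 ≤ c) (hc1 : c ≤ 3 * k) (hk : k ≤ 1 / 10 ^ 8) :
    winc l σ a c ≤ -c + σ * (8 * l * (3 * c - a)) + 3000 * l * k ^ 2 ∧
      |winc l σ a c| ≤ 288 * (l * k) := by
  have hA := abs_le.1 (abs_log_one_sub h0 (by linarith))
  have hC := abs_le.1 (abs_log_one_sub hc0 (by linarith))
  have hcc : c ^ 2 ≤ 9 * k ^ 2 := by
    have := mul_self_le_mul_self hc0 hc1
    linarith
  have haa : a ^ 2 ≤ 81 * k ^ 2 := by
    have := mul_self_le_mul_self h0 h1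
    linarith
  have hk0 : 0 ≤ k := by linarith
  have hkl : k ^ 2 ≤ l * k ^ 2 := le_mul_of_one_le_left (sq_nonneg k) hl
  have hlk : k ≤ l * k := le_mul_of_one_le_left hk0 hl
  have hkk : k ^ 2 ≤ k / 10 ^ 8 := by
    rw [sq, le_div_iff₀ (by norm_num)]
    have := mul_le_mul_of_nonneg_left hk hk0
    linarith
  have h8 := mul_le_mul_of_nonneg_left
    (show (Real.log (1 - a) + a) - 3 * (Real.log (1 - c) + c) ≤ 216 * k ^ 2 by linarith)
    (show 0 ≤ 8 * l by linarith)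
  have h8' := mul_le_mul_of_nonneg_left
    (show -(216 * k ^ 2) ≤ (Real.log (1 - a) + a) - 3 * (Real.log (1 - c) + c) by linarith)
    (show 0 ≤ 8 * l by linarith)
  have h9 := mul_le_mul_of_nonneg_left
    (show Real.log (1 - a) - 3 * Real.log (1 - c) ≤ 26 * k by linarith)
    (show 0 ≤ 8 * l by linarith)
  have h9' := mul_le_mul_of_nonneg_left
    (show -(26 * k) ≤ Real.log (1 - a) - 3 * Real.log (1 - c) by linarith)
    (show 0 ≤ 8 * l by linarith)
  rw [abs_le]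
  unfold winc
  rcases hσ with rfl | rfl <;> refine ⟨?_, ?_, ?_⟩ <;> linarith

lemma sum_winc_le {n : ℕ} (G : Gr n) (hlow : ∀ x : ℝ, (x - 1) ^ 2 / 5 ≤ psi x) (hmu : 0 < mu G)
    (he : 0 < eR G) (hP : pp G ≤ bb n) :
    |∑ D ∈ tri G, (3 * (3 / eR G) - ((sdeg G D : ℝ) - 2) / tR G)| ≤ 2 + 15 * bb n := by
  have hTmu : tR G = mu G * eR G / 3 := by rw [mu, div_mul_cancel₀ _ he.ne']; ring
  have hS2 : ∑ D ∈ tri G, (sdeg G D : ℝ) = ∑ g ∈ G, (deg G g : ℝ) * deg G g := by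
    exact_mod_cast sum_sdeg G
  have hs : ∑ g ∈ G, (deg G g : ℝ) = eR G * mu G := by
    have h' : ∑ g ∈ G, (deg G g : ℝ) = 3 * tR G := by rw [tR]; exact_mod_cast sum_deg G
    rw [h', mu, mul_div_cancel₀ _ he.ne']
  set W := ∑ g ∈ G, (xv G g - 1) ^ 2 with hW
  have hW0 : 0 ≤ W := sum_nonneg fun _ _ => sq_nonneg _
  have hW1 : mu G / eR G * W ≤ 5 * pp G := by
    rw [pp, hW, mul_sum, mul_sum, mul_sum]
    refine sum_le_sum fun g _ => ?_
    have := mul_le_mul_of_nonneg_left (hlow (xv G g)) (show 0 ≤ mu G / eR G by positivity)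
    linarith
  have hSW : ∑ g ∈ G, (deg G g : ℝ) * deg G g = mu G ^ 2 * (W + eR G) := by
    have hg : ∀ g ∈ G, (deg G g : ℝ) * deg G g
        = mu G ^ 2 * (xv G g - 1) ^ 2 + (2 * mu G * deg G g - mu G ^ 2) := by
      intro g _
      rw [xv]; field_simp; ring
    rw [sum_congr rfl hg, sum_add_distrib, ← mul_sum, sum_sub_distrib, ← mul_sum, hs, sum_const,
      nsmul_eq_mul, ← hW, show (G.card : ℝ) = eR G from rfl]
    ring
  have e : ∑ D ∈ tri G, (3 * (3 / eR G) - ((sdeg G D : ℝ) - 2) / tR G) = 2 - 3 * (mu G / eR G * W) := by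
    rw [sum_sub_distrib, sum_const, nsmul_eq_mul]
    simp only [← sum_div, sum_sub_distrib, sum_const, nsmul_eq_mul]
    rw [hS2, hSW, show ((tri G).card : ℝ) = tR G from rfl, hTmu]
    field_simp
    ring
  have : 0 ≤ mu G / eR G * W := by positivity
  rw [e, abs_le]
  constructor <;> linarith

theorem wDrift (hS : StepFacts) (hp : PsiFacts) : WDrift := by
  intro n G hbig hgood σ hσ
  obtain ⟨hen, -, hT, hD⟩ := hS n G hbig hgood
  obtain ⟨hL, -, hP, -⟩ := hgood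
  obtain ⟨hl, hn⟩ := hbig
  set l := lam n with hldef
  set K := kk n with hKdef
  have hKl : K = 32 * l := rfl
  have hK1 : 1 ≤ K := by rw [hKl]; linarith
  have hn1 : (1 : ℝ) ≤ n := le_trans (by
    have : (1 : ℝ) ≤ l ^ 20 := one_le_pow₀ (by linarith)
    nlinarith) hn
  have he1 : 10 ^ 8 * K ^ 4 ≤ eR G := by
    refine le_trans ?_ ((le_mul_of_one_le_right (by linarith)
      (Real.one_le_sqrt.2 hn1)).trans hen)
    refine le_trans ?_ hn
    rw [hKl, mul_pow, ← mul_assoc]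
    exact mul_le_mul (by norm_num) (pow_le_pow_right₀ (by linarith) (by norm_num)) (by positivity)
      (by positivity)
  have he : 0 < eR G := lt_of_lt_of_le (by positivity) he1
  have hl4 : (1 : ℝ) ≤ l ^ 4 := one_le_pow₀ (by linarith)
  have hmuL : 10 ^ 17 * l ^ 4 ≤ mu G := hL
  have hmu : 0 < mu G := by linarith
  have hTmu : tR G = mu G * eR G / 3 := by rw [mu, div_mul_cancel₀ _ he.ne']; ring
  set a : Finset (Fin n) → ℝ := fun D => ((sdeg G D : ℝ) - 2) / tR G with ha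
  set c : ℝ := 3 / eR G with hc
  have hc0 : 0 ≤ c := by positivity
  set k : ℝ := K / eR G with hk
  have hk0 : 0 ≤ k := by positivity
  have hK4 : K ^ 3 ≤ K ^ 4 := pow_le_pow_right₀ hK1 (by norm_num)
  have hK14 : K ≤ K ^ 4 := le_self_pow₀ hK1 (by norm_num)
  have hK24 : K ^ 2 ≤ K ^ 4 := pow_le_pow_right₀ hK1 (by norm_num)
  have hkK : k ≤ 1 / 10 ^ 8 ∧ K * k ≤ 1 / 10 ^ 8 ∧ K ^ 3 * k ≤ 1 / 10 ^ 8 ∧
      K ^ 2 * k ≤ 1 / 10 ^ 8 := by
    simp only [hk]
    refine ⟨?_, ?_, ?_, ?_⟩ <;>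
      (try rw [mul_div_assoc']) <;> rw [div_le_iff₀ he] <;> linarith
  obtain ⟨hk1, hKk, hK3k, hK2k⟩ := hkK
  have hc1 : c ≤ 3 * k := by
    rw [hc, hk, mul_div_assoc']
    exact div_le_div_of_nonneg_right (by linarith) he.le
  -- the increments
  set d : Finset (Fin n) → ℝ := fun D => winc l σ (a D) c with hd
  have haD : ∀ D ∈ tri G, 0 ≤ a D ∧ a D ≤ 9 * k := by
    intro D hDm
    obtain ⟨-, -, h0, h1, -⟩ := hD D hDm
    exact ⟨h0, h1.trans_eq (by rw [hk]; ring)⟩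
  have hlw : ∀ D ∈ tri G, lw σ (rem G D) = lw σ G + d D := by
    intro D hDm
    obtain ⟨-, -, -, -, he', -, hm', -⟩ := hD D hDm
    have hee : eR (rem G D) = eR G * (1 - c) := by rw [he', hc]; field_simp
    exact lw_rem σ G (rem G D) (by linarith) he hmu (by linarith [(haD D hDm).2])
      (by linarith) hee hm'
  -- first order
  have hfirst : ∀ D ∈ tri G, d D ≤ -c + σ * (8 * l * (3 * c - a D)) + 3000 * l * k ^ 2 :=
    fun D hDm => (winc_bounds hσ (by linarith) (haD D hDm).1 (haD D hDm).2 hc0 hc1 hk1).1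
  have habs : ∀ D ∈ tri G, |d D| ≤ 9 * (K * k) := by
    intro D hDm
    rw [show 9 * (K * k) = 288 * (l * k) by rw [hKl]; ring]
    exact (winc_bounds hσ (by linarith) (haD D hDm).1 (haD D hDm).2 hc0 hc1 hk1).2
  -- the sums
  have hsum1 : |∑ D ∈ tri G, (3 * c - a D)| ≤ 2 + 15 * bb n :=
    sum_winc_le G hp.1 hmu he hP
  have hcsum : tR G * c = mu G := by rw [hTmu, hc]; field_simp
  have hk2 : tR G * k ^ 2 = mu G / 3 * (K * k) := by rw [hTmu, hk]; field_simp
  have hd1 : ∑ D ∈ tri G, d D ≤ -(mu G) + 8 * l * (2 + 15 * bb n) + mu G / 100 := by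
    refine (sum_le_sum hfirst).trans ?_
    rw [sum_add_distrib, sum_add_distrib, sum_const, sum_const, nsmul_eq_mul, nsmul_eq_mul,
      ← mul_sum, ← mul_sum, show ((tri G).card : ℝ) = tR G from rfl, mul_neg, hcsum,
      show tR G * (3000 * l * k ^ 2) = 3000 * l * (tR G * k ^ 2) by ring, hk2]
    have h2 : σ * (8 * l * ∑ D ∈ tri G, (3 * c - a D)) ≤ 8 * l * (2 + 15 * bb n) := by
      obtain ⟨h3, h4⟩ := abs_le.1 hsum1
      have h5 := mul_le_mul_of_nonneg_left h3 (show 0 ≤ 8 * l by linarith)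
      have h6 := mul_le_mul_of_nonneg_left h4 (show 0 ≤ 8 * l by linarith)
      rcases hσ with rfl | rfl <;> linarith
    have h7 : 3000 * l * (mu G / 3 * (K * k)) = mu G * (1000 / 32) * (K ^ 2 * k) := by
      rw [hKl]; ring
    rw [h7]
    have h8 := mul_le_mul_of_nonneg_left hK2k (show 0 ≤ mu G * (1000 / 32) by positivity)
    linarith
  have hd2 : ∑ D ∈ tri G, d D ^ 2 ≤ mu G / 100 := by
    refine (sum_le_card_nsmul _ _ ((9 * (K * k)) ^ 2) fun D hDm => ?_).trans ?_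
    · exact sq_le_sq.2 ((habs D hDm).trans (le_abs_self _))
    rw [nsmul_eq_mul, show ((tri G).card : ℝ) = tR G from rfl,
      show tR G * (9 * (K * k)) ^ 2 = 81 * K ^ 2 * (tR G * k ^ 2) by ring, hk2,
      show 81 * K ^ 2 * (mu G / 3 * (K * k)) = mu G * 27 * (K ^ 3 * k) by ring]
    have h8 := mul_le_mul_of_nonneg_left hK3k (show 0 ≤ mu G * 27 by positivity)
    linarith
  have hB : 8 * l * (2 + 15 * bb n) ≤ mu G / 10 := by
    have hl3 : l ≤ l ^ 4 := le_self_pow₀ (by linarith) (by norm_num)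
    rw [show bb n = 3 * 10 ^ 12 * l ^ 3 from rfl]
    calc 8 * l * (2 + 15 * (3 * 10 ^ 12 * l ^ 3)) = 16 * l + 360 * 10 ^ 12 * l ^ 4 := by ring
      _ ≤ mu G / 10 := by linarith
  rw [sum_congr rfl fun D hDm => congrArg Real.exp (hlw D hDm)]
  refine (sum_exp_le _ d (lw σ G) (fun D hDm => (habs D hDm).trans (by linarith)) ?_).trans_eq ?_
  · linarith
  · rw [tR]

end Vale.Agent.P046
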